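import Vale.Agent.P300L.Fam

open scoped Manifold ContDiff Topology
open Filter Real Set

namespace Vale.Agent.P300L

variable {E : Type*} [NormedAddCommGroup E] [NormedSpace ℂ E]
  {V : Type*} [TopologicalSpace V] [ChartedSpace E V]

section comp

variable {ι : Type*} {φ : ι → V → ℂ}

/-- The open set of the points `z` with `pd φ z w < 2 δ` and `σ z < b`. -/
def nearSet {ι : Type*} (φ : ι → V → ℂ) (σ : V → ℝ) (δ b : ℝ) (w : V) : Set V :=
  {z | pd φ z w < 2 * δ ∧ σ z < b}

/-- Its connected component containing `w`. -/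
def comp {ι : Type*} (φ : ι → V → ℂ) (σ : V → ℝ) (δ b : ℝ) (w : V) : Set V :=
  connectedComponentIn (nearSet φ σ δ b w) w

variable [FiniteDimensional ℂ E] [IsManifold 𝓘(ℂ, E) ω V] {σ : V → ℝ} {δ b : ℝ}

theorem LocBdd.isOpen_nearSet (h : LocBdd E φ) (hσ : Continuous σ) (w : V) :
    IsOpen (nearSet φ σ δ b w) :=
  (isOpen_lt (h.continuous_pd w) continuous_const).inter (isOpen_lt hσ continuous_const)

theorem LocBdd.isOpen_comp [LocallyConnectedSpace V] (h : LocBdd E φ) (hσ : Continuous σ) (w : V) :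
    IsOpen (comp φ σ δ b w) :=
  (h.isOpen_nearSet hσ w).connectedComponentIn

omit [FiniteDimensional ℂ E] [IsManifold 𝓘(ℂ, E) ω V] [ChartedSpace E V] in
theorem mem_comp (hδ : 0 < δ) {w : V} (hw : σ w < b) : w ∈ comp φ σ δ b w :=
  mem_connectedComponentIn ⟨by rw [pd_self]; linarith, hw⟩

omit [FiniteDimensional ℂ E] [IsManifold 𝓘(ℂ, E) ω V] [ChartedSpace E V] in
theorem comp_subset (w : V) : comp φ σ δ b w ⊆ nearSet φ σ δ b w :=
  connectedComponentIn_subset _ _

theorem LocBdd.closure_comp_subset (h : LocBdd E φ) (hσ : Continuous σ) (w : V) :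
    closure (comp φ σ δ b w) ⊆ {z | pd φ z w ≤ 2 * δ ∧ σ z ≤ b} := by
  refine closure_minimal ?_ ?_
  · intro z hz
    exact ⟨(comp_subset w hz).1.le, (comp_subset w hz).2.le⟩
  · exact (isClosed_le (h.continuous_pd w) continuous_const).inter
      (isClosed_le hσ continuous_const)

theorem LocBdd.frontier_comp [LocallyConnectedSpace V] (h : LocBdd E φ) (hσ : Continuous σ)
    {w y : V} (hy : y ∈ frontier (comp φ σ δ b w)) (hyb : σ y < b) : 2 * δ ≤ pd φ y w := by
  by_contra hlt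
  rw [not_le] at hlt
  have hyN : y ∈ nearSet φ σ δ b w := ⟨hlt, hyb⟩
  have ho := h.isOpen_nearSet (δ := δ) (b := b) hσ w
  have hoy : IsOpen (connectedComponentIn (nearSet φ σ δ b w) y) := ho.connectedComponentIn
  have hcl : y ∈ closure (comp φ σ δ b w) := frontier_subset_closure hy
  obtain ⟨z, hz1, hz2⟩ := mem_closure_iff.1 hcl _ hoy (mem_connectedComponentIn hyN)
  have e1 := connectedComponentIn_eq hz1
  have e2 := connectedComponentIn_eq (F := nearSet φ σ δ b w) (x := w) hz2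
  have : y ∈ comp φ σ δ b w := by
    unfold comp
    rw [e2, ← e1]
    exact mem_connectedComponentIn hyN
  have hint : y ∈ interior (comp φ σ δ b w) := by
    rw [(h.isOpen_comp hσ w).interior_eq]
    exact this
  exact hy.2 hint

/-- Compact sets: the components meeting a compact set stay in a compact set. -/
theorem LocBdd.exists_compact_of_meet (h : LocBdd E φ) (hσ : Continuous σ) (hδ : 0 < δ)
    (hsep : ∀ y, σ y ≤ b → ∃ B : Set V, IsCompact B ∧ y ∈ interior B ∧
      ∀ z ∈ frontier B, 6 * δ ≤ pd φ z y) {Q : Set V} (hQ : IsCompact Q) :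
    ∃ Q' : Set V, IsCompact Q' ∧ Q ⊆ Q' ∧ ∀ w, (closure (comp φ σ δ b w) ∩ Q).Nonempty →
      closure (comp φ σ δ b w) ⊆ Q' := by
  classical
  have hS : IsCompact (Q ∩ {y | σ y ≤ b}) := hQ.inter_right (isClosed_le hσ continuous_const)
  choose! B hBc hBi hBf using hsep
  have hN : ∀ y ∈ Q ∩ {y | σ y ≤ b}, interior (B y) ∩ {y' | pd φ y' y ≤ δ} ∈ 𝓝 y := by
    intro y hy
    exact inter_mem (isOpen_interior.mem_nhds (hBi y hy.2)) (h.pd_eventually y hδ)
  obtain ⟨t, htS, ht⟩ := hS.elim_nhds_subcover _ hN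
  refine ⟨Q ∪ ⋃ y ∈ t, B y, hQ.union (t.finite_toSet.isCompact_biUnion
    fun y hy => hBc y (htS y hy).2), subset_union_left, ?_⟩
  rintro w ⟨y', hy'1, hy'2⟩
  have hcl := h.closure_comp_subset (δ := δ) (b := b) hσ w
  have hy'S : y' ∈ Q ∩ {y | σ y ≤ b} := ⟨hy'2, (hcl hy'1).2⟩
  have := ht hy'S
  simp only [mem_iUnion] at this
  obtain ⟨y, hyt, hyi, hyd⟩ := this
  have hpre : IsPreconnected (closure (comp φ σ δ b w)) :=
    isPreconnected_connectedComponentIn.closure
  have hsub := preconnected_subset_interior hpre ⟨y', hy'1, interior_subset hyi⟩ (U := B y) (by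
    rintro ⟨z, hz1, hz2⟩
    have h6 := hBf y (htS y hyt).2 z hz2
    have a1 := (hcl hz1).1
    have a2 := (hcl hy'1).1
    have a3 : pd φ y' y ≤ δ := hyd
    have a4 := h.pd_triangle z w y
    have a5 := h.pd_triangle w y' y
    rw [pd_comm w y'] at a5
    linarith)
  intro z hz
  exact Or.inr (mem_biUnion hyt (interior_subset (hsub hz)))

/-- The exhausting sequence adapted to the components. -/
theorem LocBdd.exists_seq [SigmaCompactSpace V] [WeaklyLocallyCompactSpace V]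
    (h : LocBdd E φ) (hσ : Continuous σ) (hδ : 0 < δ)
    (hsep : ∀ y, σ y ≤ b → ∃ B : Set V, IsCompact B ∧ y ∈ interior B ∧
      ∀ z ∈ frontier B, 6 * δ ≤ pd φ z y) :
    ∃ B : ℕ → Set V, (∀ k, IsCompact (B k)) ∧ Monotone B ∧ (∀ y, ∃ k, y ∈ B k) ∧
      (∀ K : Set V, IsCompact K → ∃ k, K ⊆ B k) ∧
      ∀ k w, (closure (comp φ σ δ b w) ∩ B k).Nonempty →
        closure (comp φ σ δ b w) ⊆ B (k + 1) := by
  classical
  have e : CompactExhaustion V := default
  have hstep : ∀ Q : {Q : Set V // IsCompact Q}, ∃ Q' : {Q : Set V // IsCompact Q},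
      Q.1 ⊆ Q'.1 ∧ ∀ w, (closure (comp φ σ δ b w) ∩ Q.1).Nonempty →
      closure (comp φ σ δ b w) ⊆ Q'.1 := by
    intro Q
    obtain ⟨Q', h1, h2, h3⟩ := h.exists_compact_of_meet hσ hδ hsep Q.2
    exact ⟨⟨Q', h1⟩, h2, h3⟩
  choose next hnext1 hnext2 using hstep
  let C : ℕ → {Q : Set V // IsCompact Q} := fun k => Nat.rec (⟨∅, isCompact_empty⟩)
    (fun k Q => ⟨(next Q).1 ∪ e k, (next Q).2.union (e.isCompact k)⟩) k
  have hC : ∀ k, (C (k + 1)).1 = (next (C k)).1 ∪ e k := fun k => rfl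
  have hmono : ∀ k, (C k).1 ⊆ (C (k + 1)).1 := by
    intro k
    rw [hC]
    exact (hnext1 _).trans subset_union_left
  refine ⟨fun k => (C k).1, fun k => (C k).2, monotone_nat_of_le_succ hmono, ?_, ?_, ?_⟩
  · intro y
    have : y ∈ ⋃ k, e k := by rw [e.iUnion_eq]; trivial
    obtain ⟨k, hk⟩ := mem_iUnion.1 this
    refine ⟨k + 1, ?_⟩
    show y ∈ (C (k + 1)).1
    rw [hC]
    exact Or.inr hk
  · intro K hK
    obtain ⟨k, hk⟩ := e.exists_superset_of_isCompact hK
    refine ⟨k + 1, ?_⟩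
    show K ⊆ (C (k + 1)).1
    rw [hC]
    exact hk.trans subset_union_right
  · intro k w hw
    show _ ⊆ (C (k + 1)).1
    rw [hC]
    exact (hnext2 (C k) w hw).trans subset_union_left

end comp

end Vale.Agent.P300L
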