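import Vale.Agent.P300L.Cover

open scoped Manifold ContDiff Topology
open Filter Real Set Vale.Agent.P300

namespace Vale.Agent.P300L

variable {E : Type*} [NormedAddCommGroup E] [NormedSpace ℂ E]
  {V : Type*} [TopologicalSpace V] [ChartedSpace E V]
  {Y : Type*} [TopologicalSpace Y] [ChartedSpace E Y]

/-- The translates of the point `w` and of the point `v` are `ε`-close for the functions in `F`. -/
def Near (p : V → Y) (F : Finset (V → ℂ)) (ε : ℝ) (v w : V) : Prop :=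
  ∀ γ : V ≃ₜ V, IsDeck p γ → ∀ f ∈ F, ‖f (γ w) - f (γ v)‖ < ε

theorem near_of_pd {p : V → Y} (hp : IsLocalDiffeomorph 𝓘(ℂ, E) 𝓘(ℂ, E) ω p)
    {F : Finset (V → ℂ)} (hF : ∀ f ∈ F, IsLipHol E p f) (o : V) {ε : ℝ} {v w : V}
    (h : pd (fam p F o) w v < ε) : Near p F ε v w := by
  intro γ hγ f hf
  have := (fam_locBdd hp hF o).le_pd (⟨f, hf⟩, ⟨γ, hγ⟩) w v
  simp only [fam, sub_sub_sub_cancel_right] at this
  exact this.trans_lt h

/-- Uniform version of the properness hypothesis over a compact set. -/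
theorem exists_unif_near [FiniteDimensional ℂ E] [IsManifold 𝓘(ℂ, E) ω V]
    {p : V → Y} (hp : IsLocalDiffeomorph 𝓘(ℂ, E) 𝓘(ℂ, E) ω p)
    (hA : ∀ v : V, ∃ F : Finset (V → ℂ), (∀ f ∈ F, IsLipHol E p f) ∧ ∃ ε > 0, ∃ Q : Set V,
      IsCompact Q ∧ ∀ w, Near p F ε v w → w ∈ Q)
    {D : Set V} (hD : IsCompact D) :
    ∃ (F : Finset (V → ℂ)) (ε : ℝ) (Q : Set V), (∀ f ∈ F, IsLipHol E p f) ∧ 0 < ε ∧ IsCompact Q ∧
      ∀ v ∈ D, ∀ w, Near p F ε v w → w ∈ Q := by
  classical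
  choose F hF ε hε Q hQ hFQ using hA
  have hN : ∀ v ∈ D, {v' | Near p (F v) (ε v / 2) v v'} ∈ 𝓝 v := by
    intro v _
    filter_upwards [(fam_locBdd hp (hF v) v).pd_eventually v
      (show 0 < ε v / 3 by linarith [hε v])] with v' hv'
    exact near_of_pd hp (hF v) v (by linarith [hε v])
  obtain ⟨t, _, ht⟩ := hD.elim_nhds_subcover _ hN
  obtain ⟨c, hc, hct⟩ := exists_pos_le t ε fun v _ => hε v
  refine ⟨t.biUnion F, c / 2, ⋃ v ∈ t, Q v, ?_, by positivity,
    t.finite_toSet.isCompact_biUnion fun v _ => hQ v, ?_⟩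
  · intro f hf
    obtain ⟨v, _, hfv⟩ := Finset.mem_biUnion.1 hf
    exact hF v f hfv
  · intro v' hv' w hw
    have := ht hv'
    simp only [mem_iUnion] at this
    obtain ⟨v, hvt, hv⟩ := this
    refine mem_biUnion hvt (hFQ v w fun γ hγ f hf => ?_)
    have h1 := hw γ hγ f (Finset.mem_biUnion.2 ⟨v, hvt, hf⟩)
    have h2 := hv γ hγ f hf
    have h3 := hct v hvt
    calc ‖f (γ w) - f (γ v)‖ = ‖(f (γ w) - f (γ v')) + (f (γ v') - f (γ v))‖ := by ring_nf
      _ ≤ ‖f (γ w) - f (γ v')‖ + ‖f (γ v') - f (γ v)‖ := norm_add_le _ _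
      _ < ε v := by linarith

theorem isClosed_hull (K : Set V) : IsClosed (holomorphicHull E K) := by
  have : holomorphicHull E K = ⋂ (g : V → ℂ) (_ : ContMDiff 𝓘(ℂ, E) 𝓘(ℂ) ω g) (C : ℝ)
      (_ : ∀ x ∈ K, ‖g x‖ ≤ C), {v | ‖g v‖ ≤ C} := by
    ext v
    simp [holomorphicHull]
  rw [this]
  refine isClosed_iInter fun g => isClosed_iInter fun hg => isClosed_iInter fun C =>
    isClosed_iInter fun _ => isClosed_le hg.continuous.norm continuous_const

/-- Part (A). -/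
theorem cover_holomorphicallyConvex [FiniteDimensional ℂ E] [IsManifold 𝓘(ℂ, E) ω V]
    {p : V → Y} (hp : IsHolomorphicCovering E p) (hG : IsGaloisCovering p)
    (hY : HolomorphicallyConvex E Y)
    (hA : ∀ v : V, ∃ F : Finset (V → ℂ), (∀ f ∈ F, IsLipHol E p f) ∧ ∃ ε > 0, ∃ Q : Set V,
      IsCompact Q ∧ ∀ w, Near p F ε v w → w ∈ Q) :
    HolomorphicallyConvex E V := by
  classical
  have hpr : ProperSpace E := FiniteDimensional.proper ℂ E
  have hlc : LocallyCompactSpace V := ChartedSpace.locallyCompactSpace E V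
  intro K hK hKne
  obtain ⟨o, ho⟩ := hKne
  have hph : ContMDiff 𝓘(ℂ, E) 𝓘(ℂ, E) ω p := fun x => (hp.2.2 x).contMDiffAt
  set L := holomorphicHull E (p '' K) with hL
  have hLc : IsCompact L := hY _ (hK.image hph.continuous) ⟨p o, o, ho, rfl⟩
  have hKL : ∀ x ∈ holomorphicHull E K, p x ∈ L := by
    intro x hx g hg C hC
    exact hx (fun v => g (p v)) (hg.comp hph) C fun y hy => hC (p y) ⟨y, hy, rfl⟩
  obtain ⟨D, hD, hDL⟩ := exists_compact_lift hp.2.1 hp.2.2.isLocalHomeomorph.isOpenMap hLc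
  obtain ⟨F, ε, Q, hF, hε, hQ, hFQ⟩ := exists_unif_near hp.2.2 hA hD
  have hfam := fam_locBdd hp.2.2 hF o
  obtain ⟨J, j, hj, hjK⟩ := hfam.exists_net hK (show 0 < ε / 8 by linarith)
  obtain ⟨C, hC0, hC⟩ := hfam.bdd K hK
  -- the finite-dimensional map
  set T : V → (J → ℂ) := fun x i => fam p F o i x with hT
  have hTb : Bornology.IsBounded (T '' holomorphicHull E K) := by
    rw [isBounded_iff_forall_norm_le]
    refine ⟨C, ?_⟩
    rintro _ ⟨x, hx, rfl⟩
    rw [pi_norm_le_iff_of_nonneg hC0]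
    exact fun i => hx _ (hfam.hol i) C fun y hy => hC i y hy
  have hTt : TotallyBounded (T '' holomorphicHull E K) :=
    (hTb.isCompact_closure).totallyBounded.subset subset_closure
  obtain ⟨s, hsT, hsf, hs⟩ := Metric.finite_approx_of_totallyBounded hTt (ε / 8) (by linarith)
  have h2 : ∀ a : s, ∃ x, x ∈ holomorphicHull E K ∧ T x = a := fun a => hsT a.2
  choose pre hpreK hpre using h2
  have hsub : ∀ i, ∀ x ∈ holomorphicHull E K, ‖fam p F o i x - fam p F o (j i) x‖ ≤ ε / 8 :=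
    fun i x hx => hx (fun x => fam p F o i x - fam p F o (j i) x)
      (hol_sub (hfam.hol i) (hfam.hol (j i))) (ε / 8) fun y hy => hjK i y hy
  have h3 : ∀ x ∈ holomorphicHull E K, ∃ a : s, pd (fam p F o) x (pre a) < ε := by
    intro x hx
    have := hs ⟨x, hx, rfl⟩
    simp only [mem_iUnion, Metric.mem_ball] at this
    obtain ⟨a, ha, hxa⟩ := this
    refine ⟨⟨a, ha⟩, lt_of_le_of_lt (pd_le (c := ε / 8 + ε / 8 + ε / 8) (by positivity)
      fun i => ?_) (by linarith)⟩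
    have b1 := hsub i x hx
    have b2 := hsub i _ (hpreK ⟨a, ha⟩)
    have b3 : ‖fam p F o (j i) x - fam p F o (j i) (pre ⟨a, ha⟩)‖ ≤ ε / 8 := by
      rw [dist_eq_norm] at hxa
      have h7 := norm_le_pi_norm (T x - a) ⟨j i, hj i⟩
      have h8 : T (pre ⟨a, ha⟩) = a := hpre ⟨a, ha⟩
      rw [← h8] at h7 hxa
      simp only [Pi.sub_apply, hT] at h7
      exact h7.trans hxa.le
    calc ‖fam p F o i x - fam p F o i (pre ⟨a, ha⟩)‖
        = ‖(fam p F o i x - fam p F o (j i) x)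
          + (fam p F o (j i) x - fam p F o (j i) (pre ⟨a, ha⟩))
          - (fam p F o i (pre ⟨a, ha⟩) - fam p F o (j i) (pre ⟨a, ha⟩))‖ := by ring_nf
      _ ≤ ‖(fam p F o i x - fam p F o (j i) x)
          + (fam p F o (j i) x - fam p F o (j i) (pre ⟨a, ha⟩))‖ +
          ‖fam p F o i (pre ⟨a, ha⟩) - fam p F o (j i) (pre ⟨a, ha⟩)‖ := norm_sub_le _ _
      _ ≤ (‖fam p F o i x - fam p F o (j i) x‖
          + ‖fam p F o (j i) x - fam p F o (j i) (pre ⟨a, ha⟩)‖) +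
          ‖fam p F o i (pre ⟨a, ha⟩) - fam p F o (j i) (pre ⟨a, ha⟩)‖ := by
          gcongr
          exact norm_add_le _ _
      _ ≤ ε / 8 + ε / 8 + ε / 8 := by gcongr
  -- lifts of the centres
  have h4 : ∀ a : s, ∃ d ∈ D, ∃ γ : V ≃ₜ V, IsDeck p γ ∧ γ d = pre a := by
    intro a
    obtain ⟨d, hd, hdp⟩ := hDL (hKL _ (hpreK a))
    obtain ⟨γ, hγ, hγd⟩ := hG d (pre a) hdp
    exact ⟨d, hd, γ, hγ, hγd⟩
  choose d hd γ hγ hγd using h4
  have : Finite s := hsf
  refine (isCompact_iUnion fun a : s => hQ.image (γ a).continuous).of_isClosed_subset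
    (isClosed_hull K) ?_
  intro x hx
  obtain ⟨a, ha⟩ := h3 x hx
  have hn := near_of_pd hp.2.2 hF o ha
  refine mem_iUnion.2 ⟨a, (γ a).symm x, ?_, (γ a).apply_symm_apply x⟩
  refine hFQ (d a) (hd a) _ fun γ' hγ' f hf => ?_
  have h5 := hn ((γ a).symm.trans γ') ((IsDeck.symm (hγ a)).trans hγ') f hf
  have h6 : ((γ a).symm.trans γ') (pre a) = γ' (d a) := by
    show γ' ((γ a).symm (pre a)) = γ' (d a)
    rw [← hγd a, (γ a).symm_apply_apply]
  rw [h6] at h5
  exact h5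

end Vale.Agent.P300L
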