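import Vale.Agent.P300L.Exh
import Mathlib.Geometry.Manifold.LocalDiffeomorph

open scoped Manifold ContDiff Topology
open Filter Real Set Vale.Agent.P300

namespace Vale.Agent.P300L

variable {E : Type*} [NormedAddCommGroup E] [NormedSpace ℂ E]
  {V : Type*} [TopologicalSpace V] [ChartedSpace E V]
  {Y : Type*} [TopologicalSpace Y] [ChartedSpace E Y]

/-- Deck transformations are holomorphic. -/
theorem deck_hol {p : V → Y} (hp : IsLocalDiffeomorph 𝓘(ℂ, E) 𝓘(ℂ, E) ω p)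
    {γ : V → V} (hγc : Continuous γ) (hγ : ∀ v, p (γ v) = p v) :
    ContMDiff 𝓘(ℂ, E) 𝓘(ℂ, E) ω γ := by
  intro v
  have h := hp (γ v)
  have hloc := h.localInverse_contMDiffAt
  rw [hγ v] at hloc
  have hcomp : ContMDiffAt 𝓘(ℂ, E) 𝓘(ℂ, E) ω (h.localInverse ∘ p) v :=
    hloc.comp v (hp v).contMDiffAt
  refine hcomp.congr_of_eventuallyEq ?_
  have hmem : ∀ᶠ u in 𝓝 v, γ u ∈ h.localInverse.target :=
    hγc.continuousAt.eventually_mem
      (h.localInverse.open_target.mem_nhds h.localInverse_mem_target)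
  filter_upwards [hmem] with u hu
  have := h.localInverse_left_inv hu
  rw [hγ u] at this
  exact this.symm

/-- The index set: functions in `F` and deck transformations. -/
abbrev Idx (p : V → Y) (F : Finset (V → ℂ)) : Type _ :=
  {f : V → ℂ // f ∈ F} × {γ : V ≃ₜ V // IsDeck p γ}

/-- The family of the translates of the functions in `F`, normalized at `o`. -/
noncomputable def fam (p : V → Y) (F : Finset (V → ℂ)) (o : V) (i : Idx p F) (x : V) : ℂ :=
  i.1.1 (i.2.1 x) - i.1.1 (i.2.1 o)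

theorem fam_locBdd {p : V → Y} (hp : IsLocalDiffeomorph 𝓘(ℂ, E) 𝓘(ℂ, E) ω p)
    {F : Finset (V → ℂ)} (hF : ∀ f ∈ F, IsLipHol E p f) (o : V) : LocBdd E (fam p F o) where
  hol i := by
    have h1 := (hF i.1.1 i.1.2).1
    have h2 := deck_hol hp i.2.1.continuous i.2.2
    exact hol_sub (h1.comp h2) contMDiff_const
  bdd Q hQ := by
    classical
    have hQ' : IsCompact (Q ∪ {o}) := hQ.union isCompact_singleton
    have h1 : ∀ f : {f : V → ℂ // f ∈ F}, ∃ C : ℝ, ∀ γ : V ≃ₜ V, IsDeck p γ →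
      ∀ x ∈ Q ∪ {o}, ∀ y ∈ Q ∪ {o}, ‖f.1 (γ x) - f.1 (γ y)‖ ≤ C := fun f =>
        (hF f.1 f.2).2 _ hQ'
    choose C hC using h1
    refine ⟨∑ f : {f : V → ℂ // f ∈ F}, |C f|, Finset.sum_nonneg fun _ _ => abs_nonneg _,
      fun i x hx => ?_⟩
    calc ‖fam p F o i x‖ ≤ C i.1 := hC i.1 i.2.1 i.2.2 x (Or.inl hx) o (Or.inr rfl)
      _ ≤ |C i.1| := le_abs_self _
      _ ≤ _ := Finset.single_le_sum (f := fun f => |C f|) (fun _ _ => abs_nonneg _)
          (Finset.mem_univ i.1)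

theorem exists_pos_le {α : Type*} (t : Finset α) (a : α → ℝ) (h : ∀ i ∈ t, 0 < a i) :
    ∃ c : ℝ, 0 < c ∧ ∀ i ∈ t, c ≤ a i := by
  classical
  induction t using Finset.induction_on with
  | empty => exact ⟨1, one_pos, fun i hi => by simp at hi⟩
  | insert b t hb ih =>
    obtain ⟨c, hc, hct⟩ := ih fun i hi => h i (Finset.mem_insert_of_mem hi)
    refine ⟨min c (a b), lt_min hc (h b (Finset.mem_insert_self _ _)), fun i hi => ?_⟩
    rcases Finset.mem_insert.1 hi with rfl | hi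
    · exact min_le_right _ _
    · exact (min_le_left _ _).trans (hct i hi)

/-- Uniform separation over a compact set. -/
theorem exists_unif_sep {p : V → Y}
    (hsep : ∀ v : V, ∃ B ∈ 𝓝 v, IsCompact B ∧ ∀ z ∈ frontier B, ∃ f, IsLipHol E p f ∧ f z ≠ f v)
    [T2Space V] {D : Set V} (hD : IsCompact D) :
    ∃ (F : Finset (V → ℂ)) (δ : ℝ), (∀ f ∈ F, IsLipHol E p f) ∧ 0 < δ ∧
      ∀ v ∈ D, ∃ B : Set V, IsCompact B ∧ v ∈ interior B ∧
        ∀ z ∈ frontier B, ∃ f ∈ F, 6 * δ ≤ ‖f z - f v‖ := by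
  classical
  -- pointwise finite families
  have h1 : ∀ v : V, ∃ (B : Set V) (F : Finset (V → ℂ)) (a : ℝ), IsCompact B ∧ v ∈ interior B ∧
      (∀ f ∈ F, IsLipHol E p f) ∧ 0 < a ∧ ∀ z ∈ frontier B, ∃ f ∈ F, a ≤ ‖f z - f v‖ := by
    intro v
    obtain ⟨B, hBv, hBc, hB⟩ := hsep v
    have hfr : IsCompact (frontier B) :=
      hBc.of_isClosed_subset isClosed_frontier (hBc.isClosed.frontier_subset)
    choose! f hf hfz using hB
    have hU : ∀ z ∈ frontier B, {z' | ‖f z z - f z v‖ / 2 < ‖f z z' - f z v‖} ∈ 𝓝 z := by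
      intro z hz
      have hc : Continuous fun z' => ‖f z z' - f z v‖ := by
        have := (hf z hz).1.continuous
        fun_prop
      refine (isOpen_lt continuous_const hc).mem_nhds ?_
      have : 0 < ‖f z z - f z v‖ := norm_pos_iff.2 (sub_ne_zero.2 (hfz z hz))
      show ‖f z z - f z v‖ / 2 < ‖f z z - f z v‖
      linarith
    obtain ⟨t, ht, htc⟩ := hfr.elim_nhds_subcover _ hU
    obtain ⟨a, ha, hat⟩ := exists_pos_le t (fun z => ‖f z z - f z v‖ / 2) (fun z hz => by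
      have : 0 < ‖f z z - f z v‖ := norm_pos_iff.2 (sub_ne_zero.2 (hfz z (ht z hz)))
      positivity)
    refine ⟨B, t.image f, a, hBc, mem_interior_iff_mem_nhds.2 hBv, ?_, ha, ?_⟩
    · intro g hg
      obtain ⟨z, hz, rfl⟩ := Finset.mem_image.1 hg
      exact hf z (ht z hz)
    · intro z' hz'
      have := htc hz'
      simp only [mem_iUnion] at this
      obtain ⟨z, hzt, hz⟩ := this
      exact ⟨f z, Finset.mem_image_of_mem _ hzt, (hat z hzt).trans (le_of_lt hz)⟩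
  choose B F a hBc hBi hF ha hsep' using h1
  have hN : ∀ v ∈ D, interior (B v) ∩ {v' | ∀ f ∈ F v, ‖f v' - f v‖ < a v / 2} ∈ 𝓝 v := by
    intro v _
    refine inter_mem (isOpen_interior.mem_nhds (hBi v)) ?_
    have : ∀ f ∈ F v, ∀ᶠ v' in 𝓝 v, ‖f v' - f v‖ < a v / 2 := by
      intro f hf
      have hc := (hF v f hf).1.continuous
      have := Metric.tendsto_nhds.1 (hc.tendsto v) (a v / 2) (by linarith [ha v])
      simpa [dist_eq_norm] using this
    exact (Filter.eventually_all_finset _).2 this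
  obtain ⟨t, _, ht⟩ := hD.elim_nhds_subcover _ hN
  obtain ⟨c, hc, hct⟩ := exists_pos_le t a fun v _ => ha v
  refine ⟨t.biUnion F, c / 12, ?_, by positivity, ?_⟩
  · intro f hf
    obtain ⟨v, _, hfv⟩ := Finset.mem_biUnion.1 hf
    exact hF v f hfv
  · intro v' hv'
    have := ht hv'
    simp only [mem_iUnion] at this
    obtain ⟨v, hvt, hvi, hv⟩ := this
    refine ⟨B v, hBc v, hvi, fun z hz => ?_⟩
    obtain ⟨f, hf, hfz⟩ := hsep' v z hz
    refine ⟨f, Finset.mem_biUnion.2 ⟨v, hvt, hf⟩, ?_⟩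
    have h3 := hv f hf
    have h4 := hct v hvt
    have h5 : ‖f z - f v‖ ≤ ‖f z - f v'‖ + ‖f v' - f v‖ := by
      calc ‖f z - f v‖ = ‖(f z - f v') + (f v' - f v)‖ := by ring_nf
        _ ≤ _ := norm_add_le _ _
    linarith

/-- A compact set of `V` whose image contains a given compact set of `Y`. -/
theorem exists_compact_lift [WeaklyLocallyCompactSpace V] {p : V → Y}
    (hs : Function.Surjective p) (ho : IsOpenMap p) {L : Set Y} (hL : IsCompact L) :
    ∃ D : Set V, IsCompact D ∧ L ⊆ p '' D := by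
  classical
  choose v hv using hs
  have h1 : ∀ y : Y, ∃ Q : Set V, IsCompact Q ∧ v y ∈ interior Q := by
    intro y
    obtain ⟨Q, hQ, hQ'⟩ := exists_compact_mem_nhds (v y)
    exact ⟨Q, hQ, mem_interior_iff_mem_nhds.2 hQ'⟩
  choose Q hQ hvQ using h1
  obtain ⟨t, _, ht⟩ := hL.elim_nhds_subcover (fun y => p '' interior (Q y)) fun y _ =>
    (ho _ isOpen_interior).mem_nhds ⟨v y, hvQ y, hv y⟩
  refine ⟨⋃ y ∈ t, Q y, t.finite_toSet.isCompact_biUnion fun y _ => hQ y, ?_⟩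
  intro y hy
  have := ht hy
  simp only [mem_iUnion] at this
  obtain ⟨y', hy't, x, hx, rfl⟩ := this
  exact ⟨x, mem_biUnion hy't (interior_subset hx), rfl⟩

theorem IsDeck.symm {p : V → Y} {γ : V ≃ₜ V} (h : IsDeck p γ) : IsDeck p γ.symm := fun v => by
  have := h (γ.symm v)
  rw [γ.apply_symm_apply] at this
  exact this.symm

theorem IsDeck.trans {p : V → Y} {γ γ' : V ≃ₜ V} (h : IsDeck p γ) (h' : IsDeck p γ') :
    IsDeck p (γ.trans γ') := fun v => by
  show p (γ' (γ v)) = p v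
  rw [h', h]

/-- Part (B): existence of a plurisubharmonic exhaustion function, in the form of the hypothesis
of `exists_exhaustion_aux`. -/
theorem cover_exists_psh [FiniteDimensional ℂ E] [IsManifold 𝓘(ℂ, E) ω V] [T2Space V]
    [SigmaCompactSpace V]
    {p : V → Y} (hp : IsHolomorphicCovering E p) (hG : IsGaloisCovering p)
    {ρ : Y → ℝ} (hρ : IsPSH E ρ) (hρe : IsExhaustion ρ)
    (hsep : ∀ v : V, ∃ B ∈ 𝓝 v, IsCompact B ∧ ∀ z ∈ frontier B, ∃ f, IsLipHol E p f ∧ f z ≠ f v)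
    {K : Set V} (hK : IsCompact K) :
    ∃ u : V → ℝ, IsPSH E u ∧ (∀ x ∈ K, u x ≤ 0) ∧
      ∃ Q : Set V, IsCompact Q ∧ ∀ x, x ∉ Q → 1 ≤ u x := by
  classical
  have hpr : ProperSpace E := FiniteDimensional.proper ℂ E
  have hlc : LocallyCompactSpace V := ChartedSpace.locallyCompactSpace E V
  have hlcc : LocallyConnectedSpace V := by
    have : LocallyConnectedSpace E := by
      let _ : NormedSpace ℝ E := NormedSpace.restrictScalars ℝ ℂ E
      infer_instance
    exact ChartedSpace.locallyConnectedSpace E V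
  rcases isEmpty_or_nonempty V with hV | ⟨⟨o⟩⟩
  · exact ⟨fun _ => 0, IsPSH.const 0, fun x => (hV.false x).elim, ∅, isCompact_empty,
      fun x => (hV.false x).elim⟩
  have hpd : ∀ x, MDifferentiableAt 𝓘(ℂ, E) 𝓘(ℂ, E) p x := fun x =>
    (hp.2.2 x).contMDiffAt.mdifferentiableAt (by simp)
  set σ : V → ℝ := fun x => ρ (p x) with hσ
  have hσpsh : IsPSH E σ := hρ.comp hpd
  obtain ⟨b, hb⟩ := hK.bddAbove_image hσpsh.1.continuousOn
  have hσK : ∀ x ∈ K, σ x ≤ b := fun x hx => hb ⟨x, hx, rfl⟩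
  obtain ⟨D, hD, hDL⟩ := exists_compact_lift hp.2.1 hp.2.2.isLocalHomeomorph.isOpenMap
    (hρe (b + 2))
  obtain ⟨F, δ, hF, hδ, hFsep⟩ := exists_unif_sep (p := p) hsep hD
  have hfam := fam_locBdd hp.2.2 hF o
  refine hfam.exists_psh hσpsh hK hσK hδ ?_
  intro y hy
  obtain ⟨d, hd, hdy⟩ := hDL (show p y ∈ {x | ρ x ≤ b + 2} from hy)
  obtain ⟨γ, hγ, hγd⟩ := hG d y hdy
  obtain ⟨B, hBc, hBi, hB⟩ := hFsep d hd
  refine ⟨γ '' B, hBc.image γ.continuous, ?_, ?_⟩
  · rw [← γ.image_interior]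
    exact ⟨d, hBi, hγd⟩
  · intro z hz
    rw [← γ.image_frontier] at hz
    obtain ⟨z₀, hz₀, rfl⟩ := hz
    obtain ⟨f, hf, hfz⟩ := hB z₀ hz₀
    have hdeck : IsDeck p γ.symm := IsDeck.symm hγ
    have := hfam.le_pd (⟨f, hf⟩, ⟨γ.symm, hdeck⟩) (γ z₀) y
    refine le_trans ?_ this
    simp only [fam, sub_sub_sub_cancel_right, γ.symm_apply_apply]
    rw [← hγd, γ.symm_apply_apply]
    exact hfz

end Vale.Agent.P300L
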