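import Vale.Agent.P300.Defs
import Vale.Agent.P300.CoverDefs
import Mathlib.MeasureTheory.Integral.CircleAverage
import Mathlib.Geometry.Manifold.MFDeriv.Basic

open scoped Manifold ContDiff Topology
open Filter

namespace Vale.Agent.P300L

/-- `γ` is a deck transformation of `p : V → Y`. -/
def IsDeck {V Y : Type*} [TopologicalSpace V] (p : V → Y) (γ : V ≃ₜ V) : Prop :=
  ∀ v, p (γ v) = p v

/-- `f` is a holomorphic function on the covering space `V` of `Y`, and for every compact set
`K ⊆ V` the oscillations of `f` on the translates `γ K`, `γ` a deck transformation of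
`p : V → Y`, are bounded. For compact `Y` this says that `f` is Lipschitz for the metrics lifted
from `Y`; bounded holomorphic functions are examples. -/
def IsLipHol (E : Type*) [NormedAddCommGroup E] [NormedSpace ℂ E]
    {V Y : Type*} [TopologicalSpace V] [ChartedSpace E V] (p : V → Y) (f : V → ℂ) : Prop :=
  ContMDiff 𝓘(ℂ, E) 𝓘(ℂ) ω f ∧
  ∀ K : Set V, IsCompact K → ∃ C : ℝ, ∀ γ : V ≃ₜ V, IsDeck p γ →
    ∀ x ∈ K, ∀ y ∈ K, ‖f (γ x) - f (γ y)‖ ≤ C

/-- `g` is (the germ at `0 ∈ ℂ` of) a holomorphic disc in the complex manifold `V`: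
a map `ℂ → V` which is holomorphic near `0`. -/
def IsDisc (E : Type*) [NormedAddCommGroup E] [NormedSpace ℂ E]
    {V : Type*} [TopologicalSpace V] [ChartedSpace E V] (g : ℂ → V) : Prop :=
  ∀ᶠ z in 𝓝 (0 : ℂ), MDifferentiableAt 𝓘(ℂ) 𝓘(ℂ, E) g z

/-- `u` is a continuous plurisubharmonic function on the complex manifold `V`: on every
holomorphic disc `g` it satisfies the sub-mean value inequality
`u (g 0) ≤ (1 / 2π) ∫ u (g (r exp (i t))) dt` for all sufficiently small `r > 0`. -/
def IsPSH (E : Type*) [NormedAddCommGroup E] [NormedSpace ℂ E]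
    {V : Type*} [TopologicalSpace V] [ChartedSpace E V] (u : V → ℝ) : Prop :=
  Continuous u ∧ ∀ g : ℂ → V, IsDisc E g →
    ∀ᶠ r in 𝓝[>] (0 : ℝ), u (g 0) ≤ Real.circleAverage (fun z => u (g z)) 0 r

/-- `u` is a continuous strictly plurisubharmonic function on the complex manifold `V`: near every
point `x` the function `u - c |φ| ^ 2` is plurisubharmonic for some `c > 0`, `φ` being the
preferred chart at `x`. (On a disc `g` with centre `y = g 0`, the mean value of
`|φ ∘ g - φ y| ^ 2` is the mean value of `|φ ∘ g| ^ 2` minus `|φ y| ^ 2` for every Hermitian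
norm.) -/
def IsStrictlyPSH (E : Type*) [NormedAddCommGroup E] [NormedSpace ℂ E]
    {V : Type*} [TopologicalSpace V] [ChartedSpace E V] (u : V → ℝ) : Prop :=
  Continuous u ∧ ∀ x : V, ∃ c : ℝ, 0 < c ∧ ∀ᶠ y in 𝓝 x, ∀ g : ℂ → V, IsDisc E g → g 0 = y →
    ∀ᶠ r in 𝓝[>] (0 : ℝ),
      u y + c * Real.circleAverage (fun z => ‖chartAt E x (g z) - chartAt E x y‖ ^ 2) 0 r
        ≤ Real.circleAverage (fun z => u (g z)) 0 r

/-- All the sublevel sets of `u` are compact. -/
def IsExhaustion {V : Type*} [TopologicalSpace V] (u : V → ℝ) : Prop :=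
  ∀ R : ℝ, IsCompact {v | u v ≤ R}

end Vale.Agent.P300L
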