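import Vale.Agent.P300L.Hull

open scoped Manifold ContDiff Topology
open Filter Real Set

namespace Vale.Agent.P300L

variable {E : Type*} [NormedAddCommGroup E] [NormedSpace ℂ E]
  {V : Type*} [TopologicalSpace V] [ChartedSpace E V]

/-- Strict plurisubharmonicity near `x`. -/
def StrictAt (E : Type*) [NormedAddCommGroup E] [NormedSpace ℂ E]
    {V : Type*} [TopologicalSpace V] [ChartedSpace E V] (u : V → ℝ) (x : V) : Prop :=
  ∃ c : ℝ, 0 < c ∧ ∀ᶠ y in 𝓝 x, ∀ g : ℂ → V, IsDisc E g → g 0 = y →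
    ∀ᶠ r in 𝓝[>] (0 : ℝ),
      u y + c * Real.circleAverage (fun z => ‖chartAt E x (g z) - chartAt E x y‖ ^ 2) 0 r
        ≤ Real.circleAverage (fun z => u (g z)) 0 r

theorem eventually_circleAverage_congr {g : ℂ → V} (hg : IsDisc E g) {u v : V → ℝ}
    (huv : u =ᶠ[𝓝 (g 0)] v) : ∀ᶠ r in 𝓝[>] (0 : ℝ),
      circleAverage (fun z => u (g z)) 0 r = circleAverage (fun z => v (g z)) 0 r := by
  obtain ⟨R', hR', hgR'⟩ : ∃ R' > 0, ∀ z ∈ Metric.ball (0 : ℂ) R', u (g z) = v (g z) :=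
    Metric.eventually_nhds_iff_ball.1 (hg.continuousAt.eventually huv)
  filter_upwards [eventually_lt_radius hR'] with r h4
  refine circleAverage_congr_sphere fun z hz => ?_
  rw [abs_of_pos h4.1] at hz
  exact hgR' z (sphere_subset_ball h4.1 h4.2 hz)

theorem isPSH_of_local {u : V → ℝ} (h : ∀ x, ∃ v, IsPSH E v ∧ u =ᶠ[𝓝 x] v) : IsPSH E u := by
  constructor
  · rw [continuous_iff_continuousAt]
    intro x
    obtain ⟨v, hv, huv⟩ := h x
    exact hv.1.continuousAt.congr huv.symm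
  · intro g hg
    obtain ⟨v, hv, huv⟩ := h (g 0)
    filter_upwards [hv.2 g hg, eventually_circleAverage_congr hg huv] with r h1 h2
    rw [h2, huv.eq_of_nhds]
    exact h1

theorem StrictAt.congr {u v : V → ℝ} {x : V} (h : StrictAt E u x) (huv : u =ᶠ[𝓝 x] v) :
    StrictAt E v x := by
  obtain ⟨c, hc, h⟩ := h
  refine ⟨c, hc, ?_⟩
  filter_upwards [h, huv.eventually_nhds] with y hy hy2 g hg hgy
  subst hgy
  filter_upwards [hy g hg rfl, eventually_circleAverage_congr hg hy2] with r h1 h2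
  have h3 : u (g 0) = v (g 0) := hy2.self_of_nhds
  rw [← h2, ← h3]
  exact h1

theorem StrictAt.add {u v : V → ℝ} {x : V} (h : StrictAt E u x) (hu : Continuous u)
    (hv : IsPSH E v) : StrictAt E (fun y => u y + v y) x := by
  obtain ⟨c, hc, h⟩ := h
  refine ⟨c, hc, ?_⟩
  filter_upwards [h] with y hy g hg hgy
  obtain ⟨R, hR, hgR⟩ := hg.exists_radius
  subst hgy
  filter_upwards [hy g hg rfl, hv.2 g hg, eventually_lt_radius hR] with r h1 h2 h3
  rw [circleAverage_fun_add (hgR.circleIntegrable h3.1 h3.2 hu)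
    (hgR.circleIntegrable h3.1 h3.2 hv.1)]
  linarith

theorem StrictAt.const_mul {u : V → ℝ} {x : V} (h : StrictAt E u x) {a : ℝ} (ha : 0 < a) :
    StrictAt E (fun y => a * u y) x := by
  obtain ⟨c, hc, h⟩ := h
  refine ⟨a * c, mul_pos ha hc, ?_⟩
  filter_upwards [h] with y hy g hg hgy
  filter_upwards [hy g hg hgy] with r h1
  have := circleAverage_fun_smul (𝕜 := ℝ) (a := a) (f := fun z => u (g z)) (c := 0) (R := r)
  simp only [smul_eq_mul] at this
  rw [this]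
  have := mul_le_mul_of_nonneg_left h1 ha.le
  linarith

theorem exists_exhaustion_seq [SigmaCompactSpace V] [WeaklyLocallyCompactSpace V]
    (hH : ∀ K : Set V, IsCompact K → ∃ u : V → ℝ, IsPSH E u ∧ (∀ x ∈ K, u x ≤ 0) ∧
      ∃ Q : Set V, IsCompact Q ∧ ∀ x, x ∉ Q → 1 ≤ u x) :
    ∃ (C : ℕ → Set V) (u : ℕ → V → ℝ), (∀ k, IsCompact (C k)) ∧
      (∀ k, C k ⊆ interior (C (k + 1))) ∧ (∀ y, ∃ k, y ∈ C k) ∧ (∀ k, IsPSH E (u k)) ∧
      (∀ k, ∀ x ∈ C k, u k x ≤ 0) ∧ ∀ k, ∀ x, x ∉ C (k + 1) → 1 ≤ u k x := by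
  classical
  have e : CompactExhaustion V := default
  have hstep : ∀ Q : {Q : Set V // IsCompact Q}, ∃ (Q' : {Q : Set V // IsCompact Q})
      (u : V → ℝ), IsPSH E u ∧ (∀ x ∈ Q.1, u x ≤ 0) ∧ Q.1 ⊆ interior Q'.1 ∧
      ∀ x, x ∉ Q'.1 → 1 ≤ u x := by
    intro Q
    obtain ⟨u, hu, hu0, Q₁, hQ₁, hu1⟩ := hH Q.1 Q.2
    obtain ⟨Q₂, hQ₂, hQ₂'⟩ := exists_compact_superset Q.2
    exact ⟨⟨Q₁ ∪ Q₂, hQ₁.union hQ₂⟩, u, hu, hu0, hQ₂'.trans (interior_mono subset_union_right),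
      fun x hx => hu1 x fun h => hx (Or.inl h)⟩
  choose next u hu hu0 hnext hu1 using hstep
  obtain ⟨C, hC⟩ : ∃ C : ℕ → {Q : Set V // IsCompact Q},
      ∀ k, (C (k + 1)).1 = (next (C k)).1 ∪ e k :=
    ⟨fun k => Nat.rec (⟨∅, isCompact_empty⟩)
      (fun k Q => ⟨(next Q).1 ∪ e k, (next Q).2.union (e.isCompact k)⟩) k, fun k => rfl⟩
  refine ⟨fun k => (C k).1, fun k => u (C k), fun k => (C k).2, fun k => ?_, fun y => ?_,
    fun k => hu _, fun k => hu0 _, fun k x hx => ?_⟩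
  · show (C k).1 ⊆ interior (C (k + 1)).1
    rw [hC]
    exact (hnext _).trans (interior_mono subset_union_left)
  · have : y ∈ ⋃ k, e k := by rw [e.iUnion_eq]; trivial
    obtain ⟨k, hk⟩ := mem_iUnion.1 this
    refine ⟨k + 1, ?_⟩
    show y ∈ (C (k + 1)).1
    rw [hC]
    exact Or.inr hk
  · refine hu1 _ x fun h => hx ?_
    show x ∈ (C (k + 1)).1
    rw [hC]
    exact Or.inl h

/-- Construction of an exhaustion function. -/
theorem exists_exhaustion_sum [T2Space V] {C : ℕ → Set V} {t : ℕ → V → ℝ} {s₁ : V → ℝ}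
    (hCc : ∀ k, IsCompact (C k))
    (hCi : ∀ k, C k ⊆ interior (C (k + 1))) (hcov : ∀ y, ∃ k, y ∈ C k)
    (htpsh : ∀ k, IsPSH E (t k)) (hs₁ : IsPSH E s₁) (hs₁0 : ∀ x, 0 ≤ s₁ x)
    (ht0 : ∀ k, ∀ x ∈ C k, t k x = 0) (htpos : ∀ k x, 0 ≤ t k x)
    (ht1 : ∀ k x, x ∉ C (k + 1) → 1 / 2 ≤ t k x) :
    ∃ T : V → ℝ, IsPSH E T ∧ (∀ x n, x ∈ interior (C n) →
      T =ᶠ[𝓝 x] fun y => ∑ k ∈ Finset.range n, t k y) ∧ IsExhaustion (fun x => s₁ x + T x) := by
  classical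
  have hmono : Monotone C := monotone_nat_of_le_succ fun k => (hCi k).trans interior_subset
  set N : V → ℕ := fun x => Nat.find (hcov x) with hN
  have hNmem : ∀ x, x ∈ C (N x) := fun x => Nat.find_spec (hcov x)
  have hNle : ∀ {x k}, x ∈ C k → N x ≤ k := fun {x k} hx => Nat.find_min' (hcov x) hx
  set T : V → ℝ := fun x => ∑ k ∈ Finset.range (N x), t k x with hT
  have hTn : ∀ n x, x ∈ C n → T x = ∑ k ∈ Finset.range n, t k x := by
    intro n x hx
    refine Finset.sum_subset (Finset.range_mono (hNle hx)) fun k _ hk => ?_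
    rw [Finset.mem_range, not_lt] at hk
    exact ht0 k x (hmono hk (hNmem x))
  have hTloc : ∀ x n, x ∈ interior (C n) →
      T =ᶠ[𝓝 x] fun y => ∑ k ∈ Finset.range n, t k y := by
    intro x n hx
    filter_upwards [isOpen_interior.mem_nhds hx] with y hy
    exact hTn n y (interior_subset hy)
  have hTpsh : IsPSH E T := by
    refine isPSH_of_local fun x => ?_
    exact ⟨_, IsPSH.finset_sum (Finset.range (N x + 1)) fun k _ => htpsh k,
      hTloc x (N x + 1) (hCi _ (hNmem x))⟩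
  refine ⟨T, hTpsh, hTloc, ?_⟩
  intro R
  obtain ⟨n, hn⟩ := exists_nat_gt (2 * R)
  refine (hCc n).of_isClosed_subset
    (isClosed_le (hs₁.add hTpsh).1 continuous_const) ?_
  intro x hx
  by_contra hxn
  have h1 : ∀ k ∈ Finset.range n, 1 / 2 ≤ t k x := by
    intro k hk
    refine ht1 k x fun h => hxn (hmono ?_ h)
    exact Finset.mem_range.1 hk
  have hNn : n ≤ N x := by
    by_contra hlt
    rw [not_le] at hlt
    exact hxn (hmono hlt.le (hNmem x))
  have h2 : (n : ℝ) * (1 / 2) ≤ T x := by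
    calc (n : ℝ) * (1 / 2) = ∑ k ∈ Finset.range n, (1 / 2 : ℝ) := by simp
      _ ≤ ∑ k ∈ Finset.range n, t k x := Finset.sum_le_sum h1
      _ ≤ T x := Finset.sum_le_sum_of_subset_of_nonneg (Finset.range_mono hNn)
          fun k _ _ => htpos k x
  have h3 : s₁ x + T x ≤ R := hx
  linarith [hs₁0 x]

/-- Construction of an exhaustion function with the additional local property `G`. -/
theorem exists_exhaustion_aux [SigmaCompactSpace V] [WeaklyLocallyCompactSpace V] [T2Space V]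
    (hH : ∀ K : Set V, IsCompact K → ∃ u : V → ℝ, IsPSH E u ∧ (∀ x ∈ K, u x ≤ 0) ∧
      ∃ Q : Set V, IsCompact Q ∧ ∀ x, x ∉ Q → 1 ≤ u x)
    (G : (V → ℝ) → V → Prop)
    (hGc : ∀ u v x, G u x → u =ᶠ[𝓝 x] v → G v x)
    (hGa : ∀ u v x, G u x → Continuous u → IsPSH E v → G (fun y => u y + v y) x)
    (hGm : ∀ u x (a : ℝ), G u x → 0 < a → G (fun y => a * u y) x)
    (hS : ∀ K : Set V, IsCompact K → ∃ s : V → ℝ, IsPSH E s ∧ (∀ x, 0 ≤ s x) ∧ ∀ x ∈ K, G s x) :
    ∃ ρ : V → ℝ, IsPSH E ρ ∧ IsExhaustion ρ ∧ ∀ x, G ρ x := by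
  classical
  obtain ⟨C, u', hCc, hCi, hcov, hu'psh, hu'0, hu'1⟩ := exists_exhaustion_seq hH
  have hmono : Monotone C := monotone_nat_of_le_succ fun k => (hCi k).trans interior_subset
  -- the functions `s k`
  have hs : ∀ k, ∃ (s : V → ℝ), IsPSH E s ∧ (∀ x, 0 ≤ s x) ∧ (∀ x ∈ C k, s x ≤ 1 / 4) ∧
      ∀ x ∈ C (k + 2), G s x := by
    intro k
    obtain ⟨s, hs, hs0, hsG⟩ := hS (C (k + 2)) (hCc (k + 2))
    obtain ⟨m, hm⟩ := (hCc k).bddAbove_image hs.1.continuousOn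
    set m' : ℝ := max m 1 with hm'
    have hm'0 : 0 < m' := lt_max_of_lt_right one_pos
    refine ⟨fun x => (1 / (4 * m')) * s x, hs.const_mul (by positivity), fun x => ?_,
      fun x hx => ?_, fun x hx => hGm _ _ _ (hsG x hx) (by positivity)⟩
    · have := hs0 x
      positivity
    · have h1 : s x ≤ m' := (hm ⟨x, hx, rfl⟩).trans (le_max_left _ _)
      calc (1 / (4 * m')) * s x ≤ (1 / (4 * m')) * m' := by gcongr
        _ = 1 / 4 := by field_simp
  choose s hspsh hs0 hs4 hsG using hs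
  obtain ⟨s₁, hs₁, hs₁0, hs₁G⟩ := hS (C 1) (hCc 1)
  obtain ⟨t, ht⟩ : ∃ t : ℕ → V → ℝ, ∀ k x, t k x = max (u' k x - 1 / 2 + s k x) 0 :=
    ⟨fun k x => max (u' k x - 1 / 2 + s k x) 0, fun _ _ => rfl⟩
  have htpsh : ∀ k, IsPSH E (t k) := by
    intro k
    have : t k = fun x => max (u' k x - 1 / 2 + s k x) 0 := by
      ext x
      exact ht k x
    rw [this]
    exact (((hu'psh k).sub_const _).add (hspsh k)).max (IsPSH.const 0)
  have ht0 : ∀ k, ∀ x ∈ C k, t k x = 0 := by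
    intro k x hx
    rw [ht]
    refine max_eq_right ?_
    linarith [hu'0 k x hx, hs4 k x hx]
  have htpos : ∀ k x, 0 ≤ t k x := fun k x => by rw [ht]; exact le_max_right _ _
  have ht1 : ∀ k, ∀ x, x ∉ C (k + 1) → t k x = u' k x - 1 / 2 + s k x := by
    intro k x hx
    have h1 := hu'1 k x hx
    have h2 := hs0 k x
    rw [ht]
    exact max_eq_left (by linarith)
  have ht2 : ∀ k, ∀ x, x ∉ C (k + 1) → 1 / 2 ≤ t k x := by
    intro k x hx
    rw [ht1 k x hx]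
    linarith [hu'1 k x hx, hs0 k x]
  obtain ⟨T, hTpsh, hTloc, hexh⟩ := exists_exhaustion_sum hCc hCi hcov htpsh hs₁ hs₁0 ht0 htpos ht2
  refine ⟨fun x => s₁ x + T x, hs₁.add hTpsh, hexh, ?_⟩
  intro x
  by_cases hx1 : x ∈ C 1
  · exact hGa _ _ x (hs₁G x hx1) hs₁.1 hTpsh
  · have hex := hcov x
    set n := Nat.find hex with hn
    have hnmem : x ∈ C n := Nat.find_spec hex
    have hN2 : 2 ≤ n := by
      by_contra hlt
      rw [not_le] at hlt
      exact hx1 (hmono (show n ≤ 1 by omega) hnmem)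
    obtain ⟨k, hk⟩ : ∃ k, n = k + 2 := ⟨n - 2, by omega⟩
    have hxk : x ∉ C (k + 1) := Nat.find_min hex (by omega)
    have hxk2 : x ∈ C (k + 2) := by rw [← hk]; exact hnmem
    have hTx := hTloc x (k + 3) (hCi _ hxk2)
    have hopen : (C (k + 1))ᶜ ∈ 𝓝 x := (hCc (k + 1)).isClosed.isOpen_compl.mem_nhds hxk
    have hGs := hsG k x hxk2
    -- the remaining terms
    have hrest : IsPSH E (fun y => (u' k y - 1 / 2) +
        (s₁ y + ∑ i ∈ (Finset.range (k + 3)).erase k, t i y)) :=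
      ((hu'psh k).sub_const _).add (hs₁.add (IsPSH.finset_sum _ fun i _ => htpsh i))
    refine hGc _ _ x (hGa _ _ x hGs (hspsh k).1 hrest) ?_
    filter_upwards [hTx, hopen] with y hy hy2
    rw [hy, ← Finset.add_sum_erase (Finset.range (k + 3)) (fun i => t i y)
      (Finset.mem_range.2 (show k < k + 3 by omega)), ht1 k y hy2]
    ring

end Vale.Agent.P300L
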