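import Vale.Agent.P300L.Glue
import Mathlib.Analysis.Complex.Schwarz
import Mathlib.Geometry.Manifold.MFDeriv.Atlas
import Mathlib.Topology.Connected.LocallyConnected

open scoped Manifold ContDiff Topology
open Filter Real Set

namespace Vale.Agent.P300L

variable {E : Type*} [NormedAddCommGroup E] [NormedSpace ℂ E]
  {V : Type*} [TopologicalSpace V] [ChartedSpace E V]

/-- A family of holomorphic functions which is uniformly bounded on compact sets. -/
structure LocBdd (E : Type*) [NormedAddCommGroup E] [NormedSpace ℂ E]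
    {V : Type*} [TopologicalSpace V] [ChartedSpace E V] {ι : Type*} (φ : ι → V → ℂ) : Prop where
  hol : ∀ i, ContMDiff 𝓘(ℂ, E) 𝓘(ℂ) ω (φ i)
  bdd : ∀ Q : Set V, IsCompact Q → ∃ C : ℝ, 0 ≤ C ∧ ∀ i, ∀ x ∈ Q, ‖φ i x‖ ≤ C

/-- The supremum of `|φ i|`. -/
noncomputable def supn {ι : Type*} (φ : ι → V → ℂ) (x : V) : ℝ := ⨆ i, ‖φ i x‖

/-- The pseudo-distance defined by the family. -/
noncomputable def pd {ι : Type*} (φ : ι → V → ℂ) (x y : V) : ℝ := ⨆ i, ‖φ i x - φ i y‖

section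

variable {ι : Type*} {φ : ι → V → ℂ}

theorem LocBdd.bdd_range (h : LocBdd E φ) (x : V) : BddAbove (range fun i => ‖φ i x‖) := by
  obtain ⟨C, -, hC⟩ := h.bdd {x} isCompact_singleton
  exact ⟨C, by rintro _ ⟨i, rfl⟩; exact hC i x rfl⟩

theorem LocBdd.bdd_range' (h : LocBdd E φ) (x y : V) :
    BddAbove (range fun i => ‖φ i x - φ i y‖) := by
  obtain ⟨C, -, hC⟩ := h.bdd {x, y} (by simp)
  exact ⟨C + C, by
    rintro _ ⟨i, rfl⟩
    exact (norm_sub_le _ _).trans (add_le_add (hC i x (by simp)) (hC i y (by simp)))⟩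

theorem LocBdd.le_supn (h : LocBdd E φ) (i : ι) (x : V) : ‖φ i x‖ ≤ supn φ x :=
  le_ciSup (h.bdd_range x) i

theorem LocBdd.le_pd (h : LocBdd E φ) (i : ι) (x y : V) : ‖φ i x - φ i y‖ ≤ pd φ x y :=
  le_ciSup (h.bdd_range' x y) i

omit [TopologicalSpace V] [ChartedSpace E V] in
theorem supn_le {x : V} {c : ℝ} (hc : 0 ≤ c) (h : ∀ i, ‖φ i x‖ ≤ c) : supn φ x ≤ c :=
  Real.iSup_le h hc

omit [TopologicalSpace V] [ChartedSpace E V] in
theorem pd_le {x y : V} {c : ℝ} (hc : 0 ≤ c) (h : ∀ i, ‖φ i x - φ i y‖ ≤ c) : pd φ x y ≤ c :=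
  Real.iSup_le h hc

omit [TopologicalSpace V] [ChartedSpace E V] in
theorem supn_nonneg (x : V) : 0 ≤ supn φ x := Real.iSup_nonneg fun _ => norm_nonneg _

omit [TopologicalSpace V] [ChartedSpace E V] in
theorem pd_nonneg (x y : V) : 0 ≤ pd φ x y := Real.iSup_nonneg fun _ => norm_nonneg _

omit [TopologicalSpace V] [ChartedSpace E V] in
theorem pd_comm (x y : V) : pd φ x y = pd φ y x := by
  unfold pd
  simp_rw [norm_sub_rev]

omit [TopologicalSpace V] [ChartedSpace E V] in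
theorem pd_self (x : V) : pd φ x x = 0 := by
  unfold pd
  simp

theorem LocBdd.pd_triangle (h : LocBdd E φ) (x y z : V) : pd φ x z ≤ pd φ x y + pd φ y z := by
  refine pd_le (add_nonneg (pd_nonneg _ _) (pd_nonneg _ _)) fun i => ?_
  calc ‖φ i x - φ i z‖ = ‖(φ i x - φ i y) + (φ i y - φ i z)‖ := by ring_nf
    _ ≤ ‖φ i x - φ i y‖ + ‖φ i y - φ i z‖ := norm_add_le _ _
    _ ≤ _ := add_le_add (h.le_pd i x y) (h.le_pd i y z)

/-- Equicontinuity. -/
theorem LocBdd.equicont [FiniteDimensional ℂ E] [IsManifold 𝓘(ℂ, E) ω V] (h : LocBdd E φ)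
    (x : V) {κ : ℝ} (hκ : 0 < κ) : ∀ᶠ y in 𝓝 x, ∀ i, ‖φ i y - φ i x‖ ≤ κ := by
  have hpr : ProperSpace E := FiniteDimensional.proper ℂ E
  set c := chartAt E x with hc
  have htgt : c.target ∈ 𝓝 (c x) := c.open_target.mem_nhds (c.map_source (mem_chart_source E x))
  obtain ⟨R, hR, hRt⟩ := Metric.nhds_basis_closedBall.mem_iff.1 htgt
  have hQ : IsCompact (c.symm '' Metric.closedBall (c x) R) :=
    (isCompact_closedBall _ _).image_of_continuousOn (c.continuousOn_symm.mono hRt)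
  obtain ⟨C, hC0, hC⟩ := h.bdd _ hQ
  have hsrc : c.source ∈ 𝓝 x := c.open_source.mem_nhds (mem_chart_source E x)
  have hball : ∀ᶠ y in 𝓝 x, c y ∈ Metric.ball (c x) (min R (κ * R / (2 * C + 1))) := by
    refine (c.continuousAt (mem_chart_source E x)).eventually
      (Metric.ball_mem_nhds _ (lt_min hR (by positivity)))
  filter_upwards [hsrc, hball] with y hy hyb i
  have hyb1 : c y ∈ Metric.ball (c x) R := Metric.ball_subset_ball (min_le_left _ _) hyb
  have hyb2 : dist (c y) (c x) ≤ κ * R / (2 * C + 1) :=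
    (Metric.mem_ball.1 (Metric.ball_subset_ball (min_le_right _ _) hyb)).le
  have hd : DifferentiableOn ℂ (fun e => φ i (c.symm e)) (Metric.ball (c x) R) := by
    intro e he
    have het : e ∈ c.target := hRt (Metric.ball_subset_closedBall he)
    have h1 : MDifferentiableAt 𝓘(ℂ, E) 𝓘(ℂ, E) c.symm e :=
      mdifferentiableAt_atlas_symm (chart_mem_atlas E x) het
    have h2 : MDifferentiableAt 𝓘(ℂ, E) 𝓘(ℂ) (φ i) (c.symm e) :=
      (h.hol i _).mdifferentiableAt (by simp)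
    exact (h2.comp e h1).differentiableAt.differentiableWithinAt
  have hmaps : MapsTo (fun e => φ i (c.symm e)) (Metric.ball (c x) R)
      (Metric.closedBall ((fun e => φ i (c.symm e)) (c x)) (2 * C)) := by
    intro e he
    rw [mem_closedBall_iff_norm]
    have h1 := hC i (c.symm e) ⟨e, Metric.ball_subset_closedBall he, rfl⟩
    have h2 := hC i (c.symm (c x)) ⟨c x, Metric.mem_closedBall_self hR.le, rfl⟩
    calc _ ≤ _ := norm_sub_le _ _
      _ ≤ 2 * C := by linarith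
  have key := Complex.dist_le_div_mul_dist_of_mapsTo_ball hd hmaps hyb1
  simp only [c.left_inv hy, c.left_inv (mem_chart_source E x)] at key
  rw [dist_eq_norm] at key
  refine key.trans ?_
  calc 2 * C / R * dist (c y) (c x) ≤ 2 * C / R * (κ * R / (2 * C + 1)) := by gcongr
    _ = κ * (2 * C / (2 * C + 1)) := by field_simp
    _ ≤ κ * 1 := by
        gcongr
        rw [div_le_one (by positivity)]
        linarith
    _ = κ := mul_one _

theorem LocBdd.continuous_supn [FiniteDimensional ℂ E] [IsManifold 𝓘(ℂ, E) ω V]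
    (h : LocBdd E φ) : Continuous (supn φ) := by
  rw [continuous_iff_continuousAt]
  intro x
  rw [ContinuousAt, Metric.tendsto_nhds]
  intro ε hε
  filter_upwards [h.equicont x (half_pos hε)] with y hy
  rw [Real.dist_eq, abs_lt]
  have h1 : supn φ y ≤ supn φ x + ε / 2 := by
    refine supn_le (add_nonneg (supn_nonneg _) (by linarith)) fun i => ?_
    calc ‖φ i y‖ = ‖φ i x + (φ i y - φ i x)‖ := by ring_nf
      _ ≤ ‖φ i x‖ + ‖φ i y - φ i x‖ := norm_add_le _ _
      _ ≤ _ := add_le_add (h.le_supn i x) (hy i)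
  have h2 : supn φ x ≤ supn φ y + ε / 2 := by
    refine supn_le (add_nonneg (supn_nonneg _) (by linarith)) fun i => ?_
    calc ‖φ i x‖ = ‖φ i y - (φ i y - φ i x)‖ := by ring_nf
      _ ≤ ‖φ i y‖ + ‖φ i y - φ i x‖ := norm_sub_le _ _
      _ ≤ _ := add_le_add (h.le_supn i y) (hy i)
  constructor <;> linarith

theorem LocBdd.pd_eventually [FiniteDimensional ℂ E] [IsManifold 𝓘(ℂ, E) ω V]
    (h : LocBdd E φ) (x : V) {κ : ℝ} (hκ : 0 < κ) : ∀ᶠ y in 𝓝 x, pd φ y x ≤ κ := by
  filter_upwards [h.equicont x hκ] with y hy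
  exact pd_le hκ.le hy

theorem LocBdd.continuous_pd [FiniteDimensional ℂ E] [IsManifold 𝓘(ℂ, E) ω V]
    (h : LocBdd E φ) (w : V) : Continuous (fun x => pd φ x w) := by
  rw [continuous_iff_continuousAt]
  intro x
  rw [ContinuousAt, Metric.tendsto_nhds]
  intro ε hε
  filter_upwards [h.pd_eventually x (half_pos hε)] with y hy
  rw [Real.dist_eq, abs_lt]
  have h1 := h.pd_triangle y x w
  have h2 := h.pd_triangle x y w
  rw [pd_comm x y] at h2
  constructor <;> linarith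

theorem LocBdd.supn_isPSH [FiniteDimensional ℂ E] [IsManifold 𝓘(ℂ, E) ω V]
    (h : LocBdd E φ) : IsPSH E (supn φ) := by
  refine ⟨h.continuous_supn, fun g hg => ?_⟩
  obtain ⟨R, hR, hgR⟩ := hg.exists_radius
  filter_upwards [eventually_lt_radius hR] with r h3
  have h0 : 0 ≤ circleAverage (fun z => supn φ (g z)) 0 r :=
    circleAverage_nonneg_of_nonneg (fun z _ => supn_nonneg _)
  refine supn_le h0 fun i => (hgR.mean_norm h3.1 h3.2 (h.hol i)).trans ?_
  refine circleAverage_mono ?_ (hgR.circleIntegrable h3.1 h3.2 h.continuous_supn)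
    (fun z _ => h.le_supn i _)
  exact hgR.circleIntegrable h3.1 h3.2 (h.hol i).continuous.norm

theorem LocBdd.sub {κ : Type*} (h : LocBdd E φ) (j : κ → ι) (j' : κ → ι) :
    LocBdd E (fun (k : κ) x => φ (j k) x - φ (j' k) x) where
  hol k := hol_sub (h.hol (j k)) (h.hol (j' k))
  bdd Q hQ := by
    obtain ⟨C, hC0, hC⟩ := h.bdd Q hQ
    exact ⟨C + C, by linarith, fun k x hx =>
      (norm_sub_le _ _).trans (add_le_add (hC _ x hx) (hC _ x hx))⟩

/-- A finite net for the family on a compact set. -/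
theorem LocBdd.exists_net [FiniteDimensional ℂ E] [IsManifold 𝓘(ℂ, E) ω V]
    (h : LocBdd E φ) {K : Set V} (hK : IsCompact K) {ε : ℝ} (hε : 0 < ε) :
    ∃ (J : Finset ι) (j : ι → ι), (∀ i, j i ∈ J) ∧ ∀ i, ∀ x ∈ K, ‖φ i x - φ (j i) x‖ ≤ ε := by
  classical
  have h1 : ∀ x ∈ K, {y | ∀ i, ‖φ i y - φ i x‖ ≤ ε / 3} ∈ 𝓝 x :=
    fun x _ => h.equicont x (by linarith)
  obtain ⟨t, htK, ht⟩ := hK.elim_nhds_subcover _ h1
  set T : ι → (t → ℂ) := fun i x => φ i x with hT
  obtain ⟨C, hC0, hC⟩ := h.bdd (t : Set V) t.finite_toSet.isCompact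
  have hTb : Bornology.IsBounded (range T) := by
    rw [isBounded_iff_forall_norm_le]
    refine ⟨C, ?_⟩
    rintro _ ⟨i, rfl⟩
    rw [pi_norm_le_iff_of_nonneg hC0]
    exact fun x => hC i x x.2
  have hTt : TotallyBounded (range T) :=
    (hTb.isCompact_closure).totallyBounded.subset subset_closure
  obtain ⟨s, hsT, hsf, hs⟩ := Metric.finite_approx_of_totallyBounded hTt (ε / 3) (by linarith)
  have h2 : ∀ a : s, ∃ i, T i = a := fun a => hsT a.2
  choose pre hpre using h2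
  have h3 : ∀ i, ∃ a : s, dist (T i) a < ε / 3 := by
    intro i
    have := hs (mem_range_self i)
    simp only [mem_iUnion, Metric.mem_ball] at this
    obtain ⟨a, ha, hia⟩ := this
    exact ⟨⟨a, ha⟩, hia⟩
  choose a ha using h3
  have : Fintype s := hsf.fintype
  refine ⟨Finset.univ.image pre, fun i => pre (a i), fun i => by simp, fun i x hx => ?_⟩
  have hx' := ht hx
  simp only [mem_iUnion] at hx'
  obtain ⟨y, hy, hxy⟩ := hx'
  have h4 := hxy i
  have h5 := hxy (pre (a i))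
  have h6 : ‖φ i y - φ (pre (a i)) y‖ ≤ ε / 3 := by
    have := ha i
    rw [← hpre (a i), dist_eq_norm] at this
    have h7 := norm_le_pi_norm (T i - T (pre (a i))) ⟨y, hy⟩
    simp only [Pi.sub_apply, hT] at h7
    exact h7.trans this.le
  calc ‖φ i x - φ (pre (a i)) x‖
      = ‖(φ i x - φ i y) + (φ i y - φ (pre (a i)) y) - (φ (pre (a i)) x - φ (pre (a i)) y)‖ := by
        ring_nf
    _ ≤ ‖(φ i x - φ i y) + (φ i y - φ (pre (a i)) y)‖ + ‖φ (pre (a i)) x - φ (pre (a i)) y‖ :=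
        norm_sub_le _ _
    _ ≤ (‖φ i x - φ i y‖ + ‖φ i y - φ (pre (a i)) y‖) + ‖φ (pre (a i)) x - φ (pre (a i)) y‖ := by
        gcongr
        exact norm_add_le _ _
    _ ≤ ε / 3 + ε / 3 + ε / 3 := by gcongr
    _ = ε := by ring

end

end Vale.Agent.P300L
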