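import Vale.Agent.P300L.Psh

open scoped Manifold ContDiff Topology
open Filter Real Set

namespace Vale.Agent.P300L

variable {E : Type*} [NormedAddCommGroup E] [NormedSpace ℂ E]
  {V : Type*} [TopologicalSpace V] [ChartedSpace E V]

omit [ChartedSpace E V] in
theorem preconnected_subset_interior {N U : Set V} (hN : IsPreconnected N)
    (hne : (N ∩ U).Nonempty) (hf : ¬ (N ∩ frontier U).Nonempty) : N ⊆ interior U := by
  have hsub : N ⊆ interior U ∪ (closure U)ᶜ := by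
    intro y hy
    by_cases h : y ∈ closure U
    · left
      by_contra h2
      exact hf ⟨y, hy, h, h2⟩
    · exact Or.inr h
  refine hN.subset_left_of_subset_union isOpen_interior isClosed_closure.isOpen_compl ?_ hsub ?_
  · rw [Set.disjoint_compl_right_iff_subset]
    exact interior_subset.trans subset_closure
  · obtain ⟨y, hy, hyU⟩ := hne
    refine ⟨y, hy, ?_⟩
    by_contra h2
    exact hf ⟨y, hy, subset_closure hyU, h2⟩

/-- The maximum of `P` and of the functions `L i`, each of them taken over the set `O i` only. -/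
noncomputable def glue {I : Type*} (P : V → ℝ) (O : I → Set V) (L : I → V → ℝ) (y : V) : ℝ :=
  sSup (insert (P y) {t | ∃ i, y ∈ O i ∧ L i y = t})

section

variable {I : Type*} {P : V → ℝ} {O : I → Set V} {L : I → V → ℝ} {c : I → V}

theorem glue_bdd (hbdd : ∀ y, BddAbove {t | ∃ i, y ∈ O i ∧ L i y = t}) (y : V) :
    BddAbove (insert (P y) {t | ∃ i, y ∈ O i ∧ L i y = t}) := (hbdd y).insert _

theorem le_glue_left (hbdd : ∀ y, BddAbove {t | ∃ i, y ∈ O i ∧ L i y = t}) (y : V) :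
    P y ≤ glue P O L y := le_csSup (glue_bdd hbdd y) (mem_insert _ _)

theorem le_glue_right (hbdd : ∀ y, BddAbove {t | ∃ i, y ∈ O i ∧ L i y = t}) {y : V} {i : I}
    (hy : y ∈ O i) : L i y ≤ glue P O L y :=
  le_csSup (glue_bdd hbdd y) (mem_insert_of_mem _ ⟨i, hy, rfl⟩)

theorem glue_le {y : V} {a : ℝ} (hP : P y ≤ a) (hL : ∀ i, y ∈ O i → L i y ≤ a) :
    glue P O L y ≤ a := by
  refine csSup_le (insert_nonempty _ _) ?_
  rintro t (rfl | ⟨i, hi, rfl⟩)
  · exact hP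
  · exact hL i hi

/-- The local structure of the glued function. -/
theorem glue_local [LocallyConnectedSpace V] (hP : Continuous P) (hO : ∀ i, IsOpen (O i))
    (hbdd : ∀ y, BddAbove {t | ∃ i, y ∈ O i ∧ L i y = t})
    (heq : ∀ y₀, ∀ κ > 0, ∀ᶠ y in 𝓝 y₀, ∀ i, |L i y - L i y₀| ≤ κ)
    (hcore : ∀ y₀, ∃ N ∈ 𝓝 y₀, ∀ i, c i ∈ N → N ⊆ O i)
    (hmargin : ∀ i, ∀ y ∈ frontier (O i), L i y + 1 ≤ P y ∨ ∃ j, c j = y ∧ L i y + 1 ≤ L j y)
    (y₀ : V) {κ : ℝ} (hκ : 0 < κ) :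
    ∃ N : Set V, IsOpen N ∧ y₀ ∈ N ∧ (∀ y ∈ N, |P y - P y₀| ≤ κ) ∧
      (∀ y ∈ N, ∀ i, |L i y - L i y₀| ≤ κ) ∧
      ∀ y ∈ N, ∀ η > 0, η ≤ 1 / 2 → glue P O L y - η < P y ∨
        ∃ i, N ⊆ O i ∧ glue P O L y - η < L i y := by
  obtain ⟨N₀, hN₀, hN₀'⟩ := hcore y₀
  set κ' := min κ (1 / 8) with hκ'
  have hκ'0 : 0 < κ' := lt_min hκ (by norm_num)
  have h1 : ∀ᶠ y in 𝓝 y₀, |P y - P y₀| ≤ κ' := by
    have := Metric.tendsto_nhds.1 (hP.tendsto y₀) κ' hκ'0
    filter_upwards [this] with y hy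
    rw [Real.dist_eq] at hy
    exact hy.le
  have h2 := heq y₀ κ' hκ'0
  obtain ⟨N, hNsub, hNo, hy₀N, hNc⟩ :=
    locallyConnectedSpace_iff_subsets_isOpen_isConnected.1 ‹_› y₀ _
      (inter_mem hN₀ (inter_mem h1 h2))
  refine ⟨N, hNo, hy₀N, fun y hy => (hNsub hy).2.1.trans (min_le_left _ _),
    fun y hy i => ((hNsub hy).2.2 i).trans (min_le_left _ _), ?_⟩
  have hκ8 : κ' ≤ 1 / 8 := min_le_right _ _
  have hN1 : ∀ y ∈ N, |P y - P y₀| ≤ κ' := fun y hy => (hNsub hy).2.1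
  have hN2 : ∀ y ∈ N, ∀ i, |L i y - L i y₀| ≤ κ' := fun y hy => (hNsub hy).2.2
  have hcoreN : ∀ i, c i ∈ N → N ⊆ O i := fun i hi => (fun y hy => hN₀' i (hNsub hi).1 (hNsub hy).1)
  have hPN : ∀ y ∈ N, ∀ y' ∈ N, P y' - 1 / 4 ≤ P y := by
    intro y hy y' hy'
    have a1 := abs_le.1 (hN1 y hy)
    have a2 := abs_le.1 (hN1 y' hy')
    linarith [a1.1, a2.2]
  have hLN : ∀ i, ∀ y ∈ N, ∀ y' ∈ N, L i y' - 1 / 4 ≤ L i y := by
    intro i y hy y' hy'
    have a1 := abs_le.1 (hN2 y hy i)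
    have a2 := abs_le.1 (hN2 y' hy' i)
    linarith [a1.1, a2.2]
  have key : ∀ y ∈ N, ∀ i, y ∈ O i → ¬ N ⊆ O i → L i y + 1 / 2 ≤ glue P O L y := by
    intro y hy i hyi hNi
    obtain ⟨y', hy'N, hy'⟩ : (N ∩ frontier (O i)).Nonempty := by
      by_contra hne
      exact hNi ((preconnected_subset_interior hNc.isPreconnected ⟨y, hy, hyi⟩ hne).trans
        interior_subset)
    have a0 := hLN i y' hy'N y hy
    rcases hmargin i y' hy' with h | ⟨j, hj, h⟩
    · have a1 := hPN y hy y' hy'N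
      have := le_glue_left (P := P) hbdd y
      linarith
    · have hjO := hcoreN j (by rw [hj]; exact hy'N)
      have a1 := hLN j y hy y' hy'N
      have := le_glue_right (P := P) hbdd (hjO hy)
      linarith
  intro y hy η hη hη2
  obtain ⟨t, ht, htη⟩ := exists_lt_of_lt_csSup (s := insert (P y) {t | ∃ i, y ∈ O i ∧ L i y = t})
    (insert_nonempty _ _) (b := glue P O L y - η) (by
      show glue P O L y - η < glue P O L y
      linarith)
  rcases ht with rfl | ⟨i, hi, rfl⟩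
  · exact Or.inl htη
  · by_cases hNi : N ⊆ O i
    · exact Or.inr ⟨i, hNi, htη⟩
    · have := key y hy i hi hNi
      linarith

theorem glue_isPSH [LocallyConnectedSpace V] (hP : IsPSH E P) (hO : ∀ i, IsOpen (O i))
    (hbdd : ∀ y, BddAbove {t | ∃ i, y ∈ O i ∧ L i y = t})
    (hLc : ∀ i, Continuous (L i))
    (heq : ∀ y₀, ∀ κ > 0, ∀ᶠ y in 𝓝 y₀, ∀ i, |L i y - L i y₀| ≤ κ)
    (hcore : ∀ y₀, ∃ N ∈ 𝓝 y₀, ∀ i, c i ∈ N → N ⊆ O i)
    (hmargin : ∀ i, ∀ y ∈ frontier (O i), L i y + 1 ≤ P y ∨ ∃ j, c j = y ∧ L i y + 1 ≤ L j y)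
    (hmean : ∀ g : ℂ → V, IsDisc E g → ∀ R' > 0, ∀ᶠ r in 𝓝[>] (0 : ℝ), ∀ i,
      (∀ z ∈ Metric.ball (0 : ℂ) R', g z ∈ O i) →
      L i (g 0) ≤ circleAverage (fun z => L i (g z)) 0 r) :
    IsPSH E (glue P O L) := by
  have hloc := fun y₀ {κ : ℝ} (hκ : 0 < κ) =>
    glue_local (c := c) hP.1 hO hbdd heq hcore hmargin y₀ hκ
  have hcont : Continuous (glue P O L) := by
    rw [continuous_iff_continuousAt]
    intro y₀
    rw [ContinuousAt, Metric.tendsto_nhds]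
    intro ε hε
    set κ := min (ε / 4) (1 / 2) with hκ
    have hκ0 : 0 < κ := lt_min (by linarith) (by norm_num)
    have hκ1 : κ ≤ ε / 4 := min_le_left _ _
    have hκ2 : κ ≤ 1 / 2 := min_le_right _ _
    obtain ⟨N, hNo, hy₀, hPN, hLN, hN⟩ := hloc y₀ hκ0
    filter_upwards [hNo.mem_nhds hy₀] with y hy
    rw [Real.dist_eq, abs_lt]
    have aP := abs_le.1 (hPN y hy)
    constructor
    · rcases hN y₀ hy₀ κ hκ0 hκ2 with h | ⟨i, hi, h⟩
      · have := le_glue_left (P := P) hbdd y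
        linarith [aP.1]
      · have := le_glue_right (P := P) hbdd (hi hy)
        have aL := abs_le.1 (hLN y hy i)
        linarith [aL.1]
    · rcases hN y hy κ hκ0 hκ2 with h | ⟨i, hi, h⟩
      · have := le_glue_left (P := P) hbdd y₀
        linarith [aP.2]
      · have := le_glue_right (P := P) hbdd (hi hy₀)
        have aL := abs_le.1 (hLN y hy i)
        linarith [aL.2]
  refine ⟨hcont, fun g hg => ?_⟩
  obtain ⟨R, hR, hgR⟩ := hg.exists_radius
  obtain ⟨N, hNo, hy₀, -, -, hN⟩ := hloc (g 0) (κ := 1) one_pos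
  obtain ⟨R', hR', hgR'⟩ : ∃ R' > 0, ∀ z ∈ Metric.ball (0 : ℂ) R', g z ∈ N :=
    Metric.eventually_nhds_iff_ball.1 (hg.continuousAt.eventually (hNo.mem_nhds hy₀))
  filter_upwards [hP.2 g hg, hmean g hg R' hR', eventually_lt_radius hR, eventually_lt_radius hR']
    with r h1 h2 h3 h4
  have hgi := hgR.circleIntegrable h3.1 h3.2 hcont
  refine le_of_forall_pos_lt_add fun η hη => ?_
  set η' := min η (1 / 2) with hη'
  have hη0 : 0 < η' := lt_min hη (by norm_num)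
  have hη1 : η' ≤ η := min_le_left _ _
  rcases hN (g 0) hy₀ η' hη0 (min_le_right _ _) with h | ⟨i, hi, h⟩
  · have : circleAverage (fun z => P (g z)) 0 r ≤ circleAverage (fun z => glue P O L (g z)) 0 r :=
      circleAverage_mono (hgR.circleIntegrable h3.1 h3.2 hP.1) hgi
        (fun z _ => le_glue_left hbdd _)
    linarith
  · have : circleAverage (fun z => L i (g z)) 0 r ≤ circleAverage (fun z => glue P O L (g z)) 0 r := by
      refine circleAverage_mono (hgR.circleIntegrable h3.1 h3.2 (hLc i)) hgi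
        (fun z hz => le_glue_right hbdd (hi (hgR' z ?_)))
      rw [abs_of_pos h3.1] at hz
      exact sphere_subset_ball h4.1 h4.2 hz
    have := h2 i fun z hz => hi (hgR' z hz)
    linarith

theorem glue_strictAt [LocallyConnectedSpace V] (hP : IsPSH E P) (hO : ∀ i, IsOpen (O i))
    (hbdd : ∀ y, BddAbove {t | ∃ i, y ∈ O i ∧ L i y = t})
    (hLc : ∀ i, Continuous (L i))
    (heq : ∀ y₀, ∀ κ > 0, ∀ᶠ y in 𝓝 y₀, ∀ i, |L i y - L i y₀| ≤ κ)
    (hcore : ∀ y₀, ∃ N ∈ 𝓝 y₀, ∀ i, c i ∈ N → N ⊆ O i)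
    (hmargin : ∀ i, ∀ y ∈ frontier (O i), L i y + 1 ≤ P y ∨ ∃ j, c j = y ∧ L i y + 1 ≤ L j y)
    (hglue : Continuous (glue P O L)) {x : V}
    (hPx : P x < glue P O L x) {c₀ : ℝ}
    (hmean : ∀ᶠ y in 𝓝 x, ∀ g : ℂ → V, IsDisc E g → g 0 = y → ∀ R' > 0,
      ∀ᶠ r in 𝓝[>] (0 : ℝ), ∀ i, (∀ z ∈ Metric.ball (0 : ℂ) R', g z ∈ O i) →
      L i y + c₀ * circleAverage (fun z => ‖chartAt E x (g z) - chartAt E x y‖ ^ 2) 0 r
        ≤ circleAverage (fun z => L i (g z)) 0 r) :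
    ∀ᶠ y in 𝓝 x, ∀ g : ℂ → V, IsDisc E g → g 0 = y → ∀ᶠ r in 𝓝[>] (0 : ℝ),
      glue P O L y + c₀ * circleAverage (fun z => ‖chartAt E x (g z) - chartAt E x y‖ ^ 2) 0 r
        ≤ circleAverage (fun z => glue P O L (g z)) 0 r := by
  obtain ⟨N, hNo, hxN, -, -, hN⟩ :=
    glue_local (c := c) hP.1 hO hbdd heq hcore hmargin x (κ := 1) one_pos
  have hlt : ∀ᶠ y in 𝓝 x, P y < glue P O L y :=
    (hP.1.continuousAt).eventually_lt hglue.continuousAt hPx
  filter_upwards [hmean, hNo.mem_nhds hxN, hlt] with y hy hyN hPy g hg hgy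
  subst hgy
  obtain ⟨R, hR, hgR⟩ := hg.exists_radius
  obtain ⟨R', hR', hgR'⟩ : ∃ R' > 0, ∀ z ∈ Metric.ball (0 : ℂ) R', g z ∈ N :=
    Metric.eventually_nhds_iff_ball.1 (hg.continuousAt.eventually (hNo.mem_nhds hyN))
  filter_upwards [hy g hg rfl R' hR', eventually_lt_radius hR, eventually_lt_radius hR']
    with r h2 h3 h4
  have hgi := hgR.circleIntegrable h3.1 h3.2 hglue
  refine le_of_forall_pos_lt_add fun η hη => ?_
  set η' := min (min η (1 / 2)) (glue P O L (g 0) - P (g 0)) with hη'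
  have hη0 : 0 < η' := lt_min (lt_min hη (by norm_num)) (by linarith)
  have hη1 : η' ≤ η := (min_le_left _ _).trans (min_le_left _ _)
  have hη2 : η' ≤ glue P O L (g 0) - P (g 0) := min_le_right _ _
  rcases hN (g 0) hyN η' hη0 ((min_le_left _ _).trans (min_le_right _ _)) with h | ⟨i, hi, h⟩
  · linarith
  · have : circleAverage (fun z => L i (g z)) 0 r ≤ circleAverage (fun z => glue P O L (g z)) 0 r := by
      refine circleAverage_mono (hgR.circleIntegrable h3.1 h3.2 (hLc i)) hgi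
        (fun z hz => le_glue_right hbdd (hi (hgR' z ?_)))
      rw [abs_of_pos h3.1] at hz
      exact sphere_subset_ball h4.1 h4.2 hz
    have := h2 i fun z hz => hi (hgR' z hz)
    linarith

end

end Vale.Agent.P300L
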