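import Vale.Agent.P300L.Lfun

open scoped Manifold ContDiff Topology
open Filter Real Set

namespace Vale.Agent.P300L

variable {E : Type*} [NormedAddCommGroup E] [NormedSpace ℂ E]
  {V : Type*} [TopologicalSpace V] [ChartedSpace E V]

/-- The main step, abstract form: `P` is the global plurisubharmonic function, `Ef` measures the
distance to the finite net. -/
theorem LocBdd.exists_psh_aux [FiniteDimensional ℂ E] [IsManifold 𝓘(ℂ, E) ω V]
    [LocallyConnectedSpace V]
    {ι : Type*} {φ : ι → V → ℂ} (h : LocBdd E φ) {σ : V → ℝ} (hσc : Continuous σ)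
    {b δ CG A R M : ℝ} (hδ : 0 < δ) (hCG : 0 ≤ CG) (hA : A = 2 / δ ^ 2)
    {J : Finset ι} {j : ι → ι} (hj : ∀ i, j i ∈ J)
    {P : V → ℝ} (hPpsh : IsPSH E P)
    (hgood : ∀ w, P w < 1 → supn (fun i x => φ i x - φ (j i) x) w < δ / 2 ∧ σ w < b + 1 ∧
      supn φ w < CG + 1)
    {τ : V → ℕ}
    (hτ : ∀ w, P w < 1 → ∀ y ∈ closure (comp φ σ δ (b + 2) w), τ w ≤ τ y + 1)
    (hM0 : 0 ≤ M)
    (hM : A * (J.card * (CG + 1 + 2 * δ) ^ 2) + R + 1 ≤ M) :
    (∀ y, BddAbove {t | ∃ w : {w // P w < 1}, y ∈ comp φ σ δ (b + 2) (w : V) ∧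
      lfun φ J A w y + min (τ w : ℝ) R = t}) ∧
    IsPSH E (glue (fun x => M * P x) (fun w : {w // P w < 1} => comp φ σ δ (b + 2) (w : V))
      (fun w y => lfun φ J A w y + min (τ w : ℝ) R)) := by
  have hA0 : 0 ≤ A := by rw [hA]; positivity
  have hclO : ∀ w : {w // P w < 1}, closure (comp φ σ δ (b + 2) (w : V)) ⊆
      {z | pd φ z w ≤ 2 * δ ∧ σ z ≤ b + 2} :=
    fun w => h.closure_comp_subset hσc w
  have hLM : ∀ (w : {w // P w < 1}) y, y ∈ closure (comp φ σ δ (b + 2) (w : V)) →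
      lfun φ J A w y + min (τ w : ℝ) R + 1 ≤ M := by
    intro w y hy
    have h1 := (hclO w hy).1
    have h2 := (hgood w w.2).2.2
    have h3 : ∀ i, ‖φ i y‖ ≤ CG + 1 + 2 * δ := by
      intro i
      calc ‖φ i y‖ = ‖φ i w + (φ i y - φ i w)‖ := by ring_nf
        _ ≤ ‖φ i w‖ + ‖φ i y - φ i w‖ := norm_add_le _ _
        _ ≤ supn φ w + pd φ y w := add_le_add (h.le_supn i w) (h.le_pd i y w)
        _ ≤ _ := by linarith
    have h4 := lfun_le (φ := φ) (J := J) hA0 (w := w) h3
    have h5 : min (τ w : ℝ) R ≤ R := min_le_right _ _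
    linarith
  have hbdd : ∀ y, BddAbove {t | ∃ w : {w // P w < 1}, y ∈ comp φ σ δ (b + 2) (w : V) ∧
      lfun φ J A w y + min (τ w : ℝ) R = t} := by
    intro y
    refine ⟨M, ?_⟩
    rintro t ⟨w, hw, rfl⟩
    linarith [hLM w y (subset_closure hw)]
  refine ⟨hbdd, ?_⟩
  refine glue_isPSH (c := fun w : {w // P w < 1} => (w : V)) (hPpsh.const_mul hM0)
    (fun w => h.isOpen_comp hσc w) hbdd (fun w => (h.lfun_continuous w).add continuous_const)
    ?_ ?_ ?_ ?_
  · intro y₀ κ hκ
    set D : ℝ := A * (J.card * (2 * (CG + 1))) + 1 with hD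
    have hD0 : 0 < D := by positivity
    filter_upwards [h.pd_eventually y₀ (show 0 < κ / D by positivity)] with y hy w
    have h3 : ∀ i, ‖φ i w‖ ≤ CG + 1 := fun i => (h.le_supn i w).trans (hgood w w.2).2.2.le
    have h1 := h.lfun_equicont (J := J) hA0 (by linarith : 0 ≤ CG + 1) h3 hy
    rw [add_sub_add_right_eq_sub]
    refine h1.trans ?_
    calc A * (J.card * (2 * (CG + 1))) * (κ / D) = (D - 1) * (κ / D) := by rw [hD]; ring
      _ ≤ D * (κ / D) := by gcongr; linarith
      _ = κ := by field_simp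
  · intro y₀
    have h1 := h.pd_eventually y₀ (show 0 < δ / 2 by linarith)
    have h2 : ∀ᶠ y in 𝓝 y₀, |σ y - σ y₀| < 1 / 2 := by
      have := Metric.tendsto_nhds.1 (hσc.tendsto y₀) (1 / 2) (by norm_num)
      simpa [Real.dist_eq] using this
    obtain ⟨N, hNsub, hNo, hy₀N, hNc⟩ :=
      locallyConnectedSpace_iff_subsets_isOpen_isConnected.1 ‹_› y₀ _ (inter_mem h1 h2)
    have hN1 : ∀ y ∈ N, pd φ y y₀ ≤ δ / 2 := fun y hy => (hNsub hy).1
    have hN2 : ∀ y ∈ N, |σ y - σ y₀| < 1 / 2 := fun y hy => (hNsub hy).2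
    refine ⟨N, hNo.mem_nhds hy₀N, fun w hw => ?_⟩
    refine hNc.isPreconnected.subset_connectedComponentIn hw fun y hy => ⟨?_, ?_⟩
    · have a1 := h.pd_triangle y y₀ w
      have a2 := hN1 y hy
      have a3 := hN1 w hw
      rw [pd_comm y₀ w] at a1
      linarith
    · have a1 := abs_lt.1 (hN2 y hy)
      have a2 := abs_lt.1 (hN2 w hw)
      have a3 := (hgood w w.2).2.1
      linarith [a1.2, a2.1]
  · intro w y hy
    have hycl := frontier_subset_closure hy
    by_cases hPy : P y < 1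
    · right
      refine ⟨⟨y, hPy⟩, rfl, ?_⟩
      have h1 := (hgood y hPy)
      have h2 := (hgood w w.2)
      have h3 : 2 * δ ≤ pd φ y w := h.frontier_comp hσc hy (by linarith)
      have h4 := h.net_sep hj hδ h3 h1.1 h2.1
      have h5 := lfun_margin hA0 h4
      have h8 : A * δ ^ 2 = 2 := by rw [hA]; field_simp
      have h10 : min (τ w : ℝ) R ≤ min (τ y : ℝ) R + 1 := by
        have h11 : (τ w : ℝ) ≤ τ y + 1 := by exact_mod_cast hτ w w.2 y hycl
        rcases le_total (τ y : ℝ) R with h12 | h12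
        · rw [min_eq_left h12]
          exact (min_le_left _ _).trans h11
        · rw [min_eq_right h12]
          exact (min_le_right _ _).trans (by linarith)
      simp only
      linarith
    · left
      rw [not_lt] at hPy
      have h1 := hLM w y hycl
      have h2 : M * 1 ≤ M * P y := mul_le_mul_of_nonneg_left hPy hM0
      linarith
  · intro g hg _ _
    obtain ⟨R', hR', hgR⟩ := hg.exists_radius
    filter_upwards [eventually_lt_radius hR'] with r h3 w _
    rw [h.lfun_mean hgR h3.1 h3.2]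

/-- The main step: plurisubharmonic functions separating a compact set from infinity. -/
theorem LocBdd.exists_psh [FiniteDimensional ℂ E] [IsManifold 𝓘(ℂ, E) ω V]
    [LocallyConnectedSpace V] [SigmaCompactSpace V] [WeaklyLocallyCompactSpace V]
    {ι : Type*} {φ : ι → V → ℂ} (h : LocBdd E φ) {σ : V → ℝ} (hσ : IsPSH E σ)
    {K : Set V} (hK : IsCompact K) {b : ℝ} (hσK : ∀ x ∈ K, σ x ≤ b)
    {δ : ℝ} (hδ : 0 < δ)
    (hsep : ∀ y, σ y ≤ b + 2 → ∃ B : Set V, IsCompact B ∧ y ∈ interior B ∧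
      ∀ z ∈ frontier B, 6 * δ ≤ pd φ z y) :
    ∃ u : V → ℝ, IsPSH E u ∧ (∀ x ∈ K, u x ≤ 0) ∧
      ∃ Q : Set V, IsCompact Q ∧ ∀ x, x ∉ Q → 1 ≤ u x := by
  classical
  have hσc : Continuous σ := hσ.1
  -- the finite net
  obtain ⟨J, j, hj, hjK⟩ := h.exists_net hK (show 0 < δ / 4 by linarith)
  have hsub := h.sub (fun i => i) j
  set Ef : V → ℝ := supn (fun i x => φ i x - φ (j i) x) with hEf
  have hEpsh : IsPSH E Ef := hsub.supn_isPSH
  have hEK : ∀ x ∈ K, Ef x ≤ δ / 4 := fun x hx => supn_le (by linarith) fun i => hjK i x hx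
  have hGpsh : IsPSH E (supn φ) := h.supn_isPSH
  obtain ⟨CG, hCG0, hCG⟩ := h.bdd K hK
  have hGK : ∀ x ∈ K, supn φ x ≤ CG := fun x hx => supn_le hCG0 fun i => hCG i x hx
  -- the function `P`
  set P : V → ℝ := fun x => max (max ((4 / δ) * Ef x - 1) (σ x - b)) (supn φ x - CG) with hP
  have hPpsh : IsPSH E P :=
    (((hEpsh.const_mul (by positivity)).sub_const 1).max (hσ.sub_const b)).max
      (hGpsh.sub_const CG)
  have hPK : ∀ x ∈ K, P x ≤ 0 := by
    intro x hx
    refine max_le (max_le ?_ ?_) ?_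
    · have := hEK x hx
      have : (4 / δ) * Ef x ≤ (4 / δ) * (δ / 4) := by gcongr
      have h4 : (4 / δ) * (δ / 4) = 1 := by field_simp
      linarith
    · linarith [hσK x hx]
    · linarith [hGK x hx]
  have hgood : ∀ w, P w < 1 → Ef w < δ / 2 ∧ σ w < b + 1 ∧ supn φ w < CG + 1 := by
    intro w hw
    have h1 := (max_lt_iff.1 hw).2
    have h2 := (max_lt_iff.1 (max_lt_iff.1 hw).1).1
    have h3 := (max_lt_iff.1 (max_lt_iff.1 hw).1).2
    refine ⟨?_, by linarith, by linarith⟩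
    by_contra hc
    rw [not_lt] at hc
    have : (4 / δ) * (δ / 2) ≤ (4 / δ) * Ef w := by gcongr
    have h4 : (4 / δ) * (δ / 2) = 2 := by field_simp; norm_num
    linarith
  -- the exhausting sequence and `τ`
  obtain ⟨B, hBc, hBm, hBu, hBK, hBstep⟩ := h.exists_seq (b := b + 2) hσc hδ hsep
  set τ : V → ℕ := fun y => Nat.find (hBu y) with hτ
  have hτmem : ∀ y, y ∈ B (τ y) := fun y => Nat.find_spec (hBu y)
  have hτle : ∀ {y k}, y ∈ B k → τ y ≤ k := fun {y k} hy => Nat.find_min' (hBu y) hy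
  have hwO : ∀ w, P w < 1 → w ∈ comp φ σ δ (b + 2) w := fun w hw =>
    mem_comp hδ (by linarith [(hgood w hw).2.1])
  have hτstep : ∀ w, P w < 1 → ∀ y ∈ closure (comp φ σ δ (b + 2) w), τ w ≤ τ y + 1 := by
    intro w hw y hy
    exact hτle (hBstep (τ y) w ⟨y, hy, hτmem y⟩ (subset_closure (hwO w hw)))
  obtain ⟨kK, hkK⟩ := hBK K hK
  -- constants
  set A : ℝ := 2 / δ ^ 2 with hA
  have hA0 : 0 < A := by positivity
  set C : ℝ := A * (J.card * CG ^ 2) + (kK + 1) with hC
  have hC0 : 0 ≤ C := by positivity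
  set R : ℝ := C + 1 with hR
  set M : ℝ := A * (J.card * (CG + 1 + 2 * δ) ^ 2) + R + 1 with hM
  have hM1 : 0 ≤ M := by positivity
  have hMR : R + 1 ≤ M := by
    have : 0 ≤ A * (J.card * (CG + 1 + 2 * δ) ^ 2) := by positivity
    linarith
  obtain ⟨hbdd, hglue⟩ := h.exists_psh_aux hσc hδ hCG0 hA hj hPpsh hgood hτstep hM1
    (R := R) le_rfl
  set U : V → ℝ := glue (fun x => M * P x)
    (fun w : {w // P w < 1} => comp φ σ δ (b + 2) (w : V))
      (fun w y => lfun φ J A w y + min (τ w : ℝ) R) with hU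
  refine ⟨fun x => U x - C, hglue.sub_const C, ?_, B ⌈R⌉₊, hBc _, ?_⟩
  · intro x hx
    have : U x ≤ C := by
      refine glue_le ?_ fun w hw => ?_
      · have := mul_le_mul_of_nonneg_left (hPK x hx) hM1
        linarith
      · have h3 : ∀ i, ‖φ i x‖ ≤ CG := fun i => hCG i x hx
        have h4 := lfun_le (φ := φ) (J := J) hA0.le (w := w) h3
        have h6 : min (τ w : ℝ) R ≤ kK + 1 := by
          have h7 := hτstep w w.2 x (subset_closure hw)
          have h8 := hτle (hkK hx)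
          have h9 : τ w ≤ kK + 1 := h7.trans (by omega)
          exact (min_le_left _ _).trans (by exact_mod_cast h9)
        linarith
    linarith
  · intro x hx
    have hτx : R ≤ τ x := by
      have h1 : ¬ τ x ≤ ⌈R⌉₊ := fun hle => hx (hBm hle (hτmem x))
      rw [not_le] at h1
      exact (Nat.le_ceil R).trans (by exact_mod_cast h1.le)
    by_cases hPx : P x < 1
    · have h1 : lfun φ J A x x + min (τ x : ℝ) R ≤ U x :=
        le_glue_right (P := fun x => M * P x)
          (O := fun w : {w // P w < 1} => comp φ σ δ (b + 2) (w : V))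
          (L := fun w y => lfun φ J A w y + min (τ w : ℝ) R) hbdd (i := ⟨x, hPx⟩) (hwO x hPx)
      have h2 := lfun_self_nonneg (φ := φ) (J := J) hA0.le x
      have h4 : min (τ x : ℝ) R = R := min_eq_right hτx
      linarith
    · rw [not_lt] at hPx
      have h1 : M * P x ≤ U x := le_glue_left (P := fun x => M * P x)
          (O := fun w : {w // P w < 1} => comp φ σ δ (b + 2) (w : V))
          (L := fun w y => lfun φ J A w y + min (τ w : ℝ) R) hbdd x
      have h2 : M * 1 ≤ M * P x := mul_le_mul_of_nonneg_left hPx hM1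
      linarith

end Vale.Agent.P300L
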