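import Vale.Agent.P300L.Comp

open scoped Manifold ContDiff Topology
open Filter Real Set

namespace Vale.Agent.P300L

variable {E : Type*} [NormedAddCommGroup E] [NormedSpace ℂ E]
  {V : Type*} [TopologicalSpace V] [ChartedSpace E V]

theorem aux_norm (a b : ℂ) : ‖b‖ ^ 2 - ‖b - a‖ ^ 2 = ((starRingEnd ℂ) a * 2 * b).re - ‖a‖ ^ 2 := by
  rw [← Complex.normSq_eq_norm_sq, ← Complex.normSq_eq_norm_sq, ← Complex.normSq_eq_norm_sq]
  simp only [Complex.normSq_apply, Complex.sub_re, Complex.sub_im, Complex.mul_re,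
    Complex.mul_im, Complex.conj_re, Complex.conj_im, Complex.re_ofNat, Complex.im_ofNat]
  ring

/-- The pluriharmonic function `A ∑ (|φ i| ^ 2 - |φ i - φ i w| ^ 2)`. -/
noncomputable def lfun {ι : Type*} (φ : ι → V → ℂ) (J : Finset ι) (A : ℝ) (w y : V) : ℝ :=
  A * ∑ i ∈ J, (‖φ i y‖ ^ 2 - ‖φ i y - φ i w‖ ^ 2)

variable {ι : Type*} {φ : ι → V → ℂ} {J : Finset ι} {A : ℝ}

/-- The holomorphic function with real part `lfun` up to a constant. -/
noncomputable def hfun {ι : Type*} (φ : ι → V → ℂ) (J : Finset ι) (A : ℝ) (w y : V) : ℂ :=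
  ∑ i ∈ J, (A : ℂ) * ((starRingEnd ℂ) (φ i w) * 2 * φ i y)

omit [TopologicalSpace V] [ChartedSpace E V] in
theorem lfun_eq (w y : V) : lfun φ J A w y = (hfun φ J A w y).re - A * ∑ i ∈ J, ‖φ i w‖ ^ 2 := by
  unfold lfun hfun
  rw [Complex.re_sum, Finset.mul_sum, Finset.mul_sum, ← Finset.sum_sub_distrib]
  refine Finset.sum_congr rfl fun i _ => ?_
  rw [Complex.re_ofReal_mul, aux_norm]
  ring

theorem LocBdd.hfun_hol (h : LocBdd E φ) (w : V) :
    ContMDiff 𝓘(ℂ, E) 𝓘(ℂ) ω (hfun φ J A w) :=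
  hol_sum J fun i => hol_const_mul _ (hol_const_mul _ (h.hol i))

theorem LocBdd.lfun_continuous (h : LocBdd E φ) (w : V) : Continuous (lfun φ J A w) := by
  have : lfun φ J A w = fun y => (hfun φ J A w y).re - A * ∑ i ∈ J, ‖φ i w‖ ^ 2 := by
    ext y; exact lfun_eq w y
  rw [this]
  exact (Complex.continuous_re.comp (h.hfun_hol w).continuous).sub continuous_const

theorem LocBdd.lfun_mean (h : LocBdd E φ) {g : ℂ → V} {R r : ℝ} (hg : DiscOn E g R) (hr : 0 < r)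
    (hrR : r < R) (w : V) (a : ℝ) :
    circleAverage (fun z => lfun φ J A w (g z) + a) 0 r = lfun φ J A w (g 0) + a := by
  have h1 := hg.mean_re hr hrR (h.hfun_hol (J := J) (A := A) w)
  have h2 : (fun z => lfun φ J A w (g z) + a) =
      fun z => (hfun φ J A w (g z)).re + (- (A * ∑ i ∈ J, ‖φ i w‖ ^ 2) + a) := by
    ext z
    rw [lfun_eq]
    ring
  have hi : CircleIntegrable (fun z => (hfun φ J A w (g z)).re) 0 r :=
    hg.circleIntegrable hr hrR (u := fun v => (hfun φ J A w v).re)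
      (Complex.continuous_re.comp (h.hfun_hol w).continuous)
  rw [h2, circleAverage_fun_add hi (circleIntegrable_const _ _ _),
        circleAverage_const, h1, lfun_eq]
  ring

theorem LocBdd.lfun_equicont (h : LocBdd E φ) (hA : 0 ≤ A) {w y y₀ : V} {c κ : ℝ} (hc : 0 ≤ c)
    (hw : ∀ i, ‖φ i w‖ ≤ c) (hy : pd φ y y₀ ≤ κ) :
    |lfun φ J A w y - lfun φ J A w y₀| ≤ A * (J.card * (2 * c)) * κ := by
  rw [lfun_eq, lfun_eq, sub_sub_sub_cancel_right]
  unfold hfun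
  rw [← Complex.sub_re, ← Finset.sum_sub_distrib]
  refine (Complex.abs_re_le_norm _).trans ((norm_sum_le _ _).trans ?_)
  calc ∑ i ∈ J, ‖(A : ℂ) * ((starRingEnd ℂ) (φ i w) * 2 * φ i y) -
        (A : ℂ) * ((starRingEnd ℂ) (φ i w) * 2 * φ i y₀)‖ ≤ ∑ i ∈ J, A * (c * 2) * κ := by
        refine Finset.sum_le_sum fun i _ => ?_
        have h1 : (A : ℂ) * ((starRingEnd ℂ) (φ i w) * 2 * φ i y) -
          (A : ℂ) * ((starRingEnd ℂ) (φ i w) * 2 * φ i y₀)
          = (A : ℂ) * ((starRingEnd ℂ) (φ i w) * 2) * (φ i y - φ i y₀) := by ring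
        rw [h1, norm_mul, norm_mul, norm_mul, RCLike.norm_conj, Complex.norm_real,
          Real.norm_of_nonneg hA, Complex.norm_ofNat]
        have h2 := hw i
        have h3 := (h.le_pd i y y₀).trans hy
        gcongr
    _ = _ := by
        rw [Finset.sum_const, nsmul_eq_mul]
        ring

omit [TopologicalSpace V] [ChartedSpace E V] in
theorem lfun_le (hA : 0 ≤ A) {w y : V} {c : ℝ}
    (hy : ∀ i, ‖φ i y‖ ≤ c) :
    lfun φ J A w y ≤ A * (J.card * c ^ 2) := by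
  unfold lfun
  refine mul_le_mul_of_nonneg_left ?_ hA
  calc ∑ i ∈ J, (‖φ i y‖ ^ 2 - ‖φ i y - φ i w‖ ^ 2) ≤ ∑ i ∈ J, c ^ 2 := by
        refine Finset.sum_le_sum fun i _ => ?_
        have h1 := hy i
        have h2 : ‖φ i y‖ ^ 2 ≤ c ^ 2 := by gcongr
        have h3 : 0 ≤ ‖φ i y - φ i w‖ ^ 2 := by positivity
        linarith
    _ = _ := by rw [Finset.sum_const, nsmul_eq_mul]

omit [TopologicalSpace V] [ChartedSpace E V] in
theorem lfun_self_nonneg (hA : 0 ≤ A) (w : V) : 0 ≤ lfun φ J A w w := by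
  unfold lfun
  refine mul_nonneg hA (Finset.sum_nonneg fun i _ => ?_)
  simp

omit [TopologicalSpace V] [ChartedSpace E V] in
theorem lfun_margin {δ : ℝ} (hA : 0 ≤ A) {w y : V}
    (hy : δ ^ 2 ≤ ∑ i ∈ J, ‖φ i y - φ i w‖ ^ 2) :
    lfun φ J A w y + A * δ ^ 2 ≤ lfun φ J A y y := by
  have h1 : lfun φ J A y y - lfun φ J A w y = A * ∑ i ∈ J, ‖φ i y - φ i w‖ ^ 2 := by
    unfold lfun
    rw [← mul_sub, ← Finset.sum_sub_distrib]
    congr 1
    refine Finset.sum_congr rfl fun i _ => ?_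
    simp
  have h2 := mul_le_mul_of_nonneg_left hy hA
  linarith

/-- The pseudo-distance is controlled by the finite net. -/
theorem LocBdd.pd_le_net (h : LocBdd E φ) {j : ι → ι} (hj : ∀ i, j i ∈ J) {δ : ℝ} (hδ : 0 ≤ δ)
    {y w : V} (hJ : ∀ i ∈ J, ‖φ i y - φ i w‖ ≤ δ) :
    pd φ y w ≤ δ + supn (fun i x => φ i x - φ (j i) x) y
      + supn (fun i x => φ i x - φ (j i) x) w := by
  have hsub := h.sub (fun i => i) j
  have n1 := supn_nonneg (φ := fun i x => φ i x - φ (j i) x) y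
  have n2 := supn_nonneg (φ := fun i x => φ i x - φ (j i) x) w
  refine pd_le (by linarith) fun i => ?_
  have a1 : ‖φ i y - φ (j i) y‖ ≤ _ := hsub.le_supn i y
  have a2 : ‖φ i w - φ (j i) w‖ ≤ _ := hsub.le_supn i w
  have a3 := hJ (j i) (hj i)
  calc ‖φ i y - φ i w‖ = ‖(φ (j i) y - φ (j i) w) + (φ i y - φ (j i) y)
        - (φ i w - φ (j i) w)‖ := by ring_nf
    _ ≤ ‖(φ (j i) y - φ (j i) w) + (φ i y - φ (j i) y)‖ + ‖φ i w - φ (j i) w‖ :=
      norm_sub_le _ _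
    _ ≤ ‖φ (j i) y - φ (j i) w‖ + ‖φ i y - φ (j i) y‖ + ‖φ i w - φ (j i) w‖ := by
      gcongr
      exact norm_add_le _ _
    _ ≤ _ := by gcongr

/-- Frontier points of the components are separated by the finite net. -/
theorem LocBdd.net_sep [FiniteDimensional ℂ E] [IsManifold 𝓘(ℂ, E) ω V]
    (h : LocBdd E φ) {j : ι → ι} (hj : ∀ i, j i ∈ J) {δ : ℝ} (hδ : 0 < δ)
    {y w : V} (h3 : 2 * δ ≤ pd φ y w)
    (hy : supn (fun i x => φ i x - φ (j i) x) y < δ / 2)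
    (hw : supn (fun i x => φ i x - φ (j i) x) w < δ / 2) :
    δ ^ 2 ≤ ∑ i ∈ J, ‖φ i y - φ i w‖ ^ 2 := by
  by_contra hlt
  rw [not_le] at hlt
  have h5 : ∀ i ∈ J, ‖φ i y - φ i w‖ ≤ δ := by
    intro i hi
    have : ‖φ i y - φ i w‖ ^ 2 ≤ ∑ i ∈ J, ‖φ i y - φ i w‖ ^ 2 :=
      Finset.single_le_sum (f := fun i => ‖φ i y - φ i w‖ ^ 2)
        (fun i _ => by positivity) hi
    exact (abs_le_of_sq_le_sq' (this.trans hlt.le) hδ.le).2
  have := h.pd_le_net hj hδ.le h5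
  linarith

end Vale.Agent.P300L
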