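import Vale.Agent.P300L.Strict

open scoped Manifold ContDiff Topology
open Filter Real Set Vale.Agent.P300

namespace Vale.Agent.P300L

variable {E : Type*} [NormedAddCommGroup E] [NormedSpace ℂ E]
  {V : Type*} [TopologicalSpace V] [ChartedSpace E V]

/-- Mean value of `|h| ^ 2` for a holomorphic function of one variable. -/
theorem mean_normSq_one {h : ℂ → ℂ} {R r : ℝ}
    (hh : ∀ z ∈ Metric.ball (0 : ℂ) R, DifferentiableAt ℂ h z) (hr : 0 < r) (hrR : r < R) :
    ‖h 0‖ ^ 2 + circleAverage (fun z => ‖h z - h 0‖ ^ 2) 0 r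
      = circleAverage (fun z => ‖h z‖ ^ 2) 0 r := by
  have hd : DiscOn ℂ h R := fun z hz => (hh z hz).mdifferentiableAt
  exact hd.mean_normSq hr hrR (f := id) contMDiff_id

/-- The Hermitian square of a vector in coordinates. -/
noncomputable def qf (E : Type*) [NormedAddCommGroup E] [NormedSpace ℂ E] [FiniteDimensional ℂ E]
    (e : E) : ℝ :=
  ∑ k, ‖(Module.finBasis ℂ E).repr e k‖ ^ 2

theorem qf_nonneg [FiniteDimensional ℂ E] (e : E) : 0 ≤ qf E e := by
  unfold qf
  positivity

theorem continuous_coord [FiniteDimensional ℂ E] (k : Fin (Module.finrank ℂ E)) :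
    Continuous fun e : E => (Module.finBasis ℂ E).repr e k :=
  ((Module.finBasis ℂ E).coord k).continuous_of_finiteDimensional

theorem continuous_qf [FiniteDimensional ℂ E] : Continuous (qf E) := by
  unfold qf
  exact continuous_finsetSum _ fun k _ => (continuous_coord k).norm.pow 2

theorem exists_qf_bound (E : Type*) [NormedAddCommGroup E] [NormedSpace ℂ E]
    [FiniteDimensional ℂ E] : ∃ c : ℝ, 0 < c ∧ ∀ e : E, c * ‖e‖ ^ 2 ≤ qf E e := by
  set b := Module.finBasis ℂ E with hb
  set C : ℝ := ∑ k, ‖b k‖ with hC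
  have hC0 : 0 ≤ C := by positivity
  refine ⟨1 / (C ^ 2 + 1), by positivity, fun e => ?_⟩
  have h1 : ‖e‖ ≤ Real.sqrt (qf E e) * C := by
    conv_lhs => rw [← b.sum_repr e]
    refine (norm_sum_le _ _).trans ?_
    rw [hC, Finset.mul_sum]
    refine Finset.sum_le_sum fun k _ => ?_
    rw [norm_smul]
    refine mul_le_mul_of_nonneg_right ?_ (norm_nonneg _)
    refine Real.le_sqrt_of_sq_le ?_
    exact Finset.single_le_sum (f := fun k => ‖b.repr e k‖ ^ 2) (fun _ _ => by positivity)
      (Finset.mem_univ k)
  have h2 : ‖e‖ ^ 2 ≤ qf E e * C ^ 2 := by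
    calc ‖e‖ ^ 2 ≤ (Real.sqrt (qf E e) * C) ^ 2 := by gcongr
      _ = _ := by rw [mul_pow, Real.sq_sqrt (qf_nonneg e)]
  rw [one_div, inv_mul_le_iff₀ (by positivity)]
  nlinarith [qf_nonneg e]

/-- Mean value of `qf` along a holomorphic disc in `E`. -/
theorem mean_qf [FiniteDimensional ℂ E] {h : ℂ → E} {R r : ℝ}
    (hh : ∀ z ∈ Metric.ball (0 : ℂ) R, DifferentiableAt ℂ h z) (hr : 0 < r) (hrR : r < R) :
    qf E (h 0) + circleAverage (fun z => qf E (h z - h 0)) 0 r
      = circleAverage (fun z => qf E (h z)) 0 r := by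
  set b := Module.finBasis ℂ E with hb
  have hk : ∀ k, ∀ z ∈ Metric.ball (0 : ℂ) R, DifferentiableAt ℂ (fun z => b.repr (h z) k) z := by
    intro k z hz
    have h1 : DifferentiableAt ℂ (LinearMap.toContinuousLinearMap (b.coord k)) (h z) :=
      (LinearMap.toContinuousLinearMap (b.coord k)).differentiableAt
    exact h1.comp z (hh z hz)
  have hcont : ∀ k, ContinuousOn (fun z => b.repr (h z) k) (Metric.sphere (0 : ℂ) r) := fun k =>
    fun z hz => (hk k z (sphere_subset_ball hr hrR hz)).continuousAt.continuousWithinAt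
  unfold qf
  rw [circleAverage_fun_sum, circleAverage_fun_sum, ← Finset.sum_add_distrib]
  · refine Finset.sum_congr rfl fun k _ => ?_
    have := mean_normSq_one (hk k) hr hrR
    simpa [map_sub] using this
  · intro k _
    refine ContinuousOn.circleIntegrable hr.le ((hcont k).norm.pow 2)
  · intro k _
    refine ContinuousOn.circleIntegrable hr.le ?_
    have := ((hcont k).sub (continuousOn_const (c := b.repr (h 0) k))).norm.pow 2
    refine this.congr fun z _ => ?_
    simp [hb, map_sub]

/-- A compact neighbourhood in a chart and a continuous function which is the Hermitian square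
of the chart on it. -/
theorem exists_bump [FiniteDimensional ℂ E] [T2Space V] (v : V) {U : Set V} (hU : U ∈ 𝓝 v) :
    ∃ (B : Set V) (ψ : V → ℝ), IsCompact B ∧ v ∈ interior B ∧ B ⊆ U ∧
      B ⊆ (chartAt E v).source ∧ Continuous ψ ∧ (∀ y, 0 ≤ ψ y) ∧
      ∀ y ∈ B, ψ y = qf E (chartAt E v y - chartAt E v v) := by
  classical
  have hpr : ProperSpace E := FiniteDimensional.proper ℂ E
  set c := chartAt E v with hc
  have hv : v ∈ c.source := mem_chart_source E v
  have hvt : c v ∈ c.target := c.map_source hv
  have h1 : c.target ∩ c.symm ⁻¹' U ∈ 𝓝 (c v) := by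
    refine inter_mem (c.open_target.mem_nhds hvt) ?_
    refine (c.continuousAt_symm hvt).preimage_mem_nhds ?_
    rw [c.left_inv hv]
    exact hU
  obtain ⟨r', hr', hball⟩ := Metric.nhds_basis_closedBall.mem_iff.1 h1
  set r := r' / 2 with hr
  have hr0 : 0 < r := by positivity
  have hrr' : r < r' := by rw [hr]; linarith
  set B := c.symm '' Metric.closedBall (c v) r with hB
  set B' := c.symm '' Metric.closedBall (c v) r' with hB'
  have hsub : Metric.closedBall (c v) r ⊆ Metric.closedBall (c v) r' :=
    Metric.closedBall_subset_closedBall hrr'.le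
  have hB'c : IsCompact B' := (isCompact_closedBall _ _).image_of_continuousOn
    (c.continuousOn_symm.mono fun e he => (hball he).1)
  have hBc : IsCompact B := (isCompact_closedBall _ _).image_of_continuousOn
    (c.continuousOn_symm.mono fun e he => (hball (hsub he)).1)
  set θ : E → ℝ := fun e => max 0 (min 1 ((r' - ‖e - c v‖) / (r' - r))) with hθ
  have hθc : Continuous θ := by fun_prop
  have hθ0 : ∀ e, 0 ≤ θ e := fun e => le_max_left _ _
  have hθ1 : ∀ e ∈ Metric.closedBall (c v) r, θ e = 1 := by
    intro e he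
    rw [mem_closedBall_iff_norm] at he
    have : 1 ≤ (r' - ‖e - c v‖) / (r' - r) := by
      rw [le_div_iff₀ (by linarith)]
      linarith
    simp only [hθ]
    rw [min_eq_left this]
    exact max_eq_right zero_le_one
  have hθz : ∀ e, e ∉ Metric.closedBall (c v) r' → θ e = 0 := by
    intro e he
    rw [mem_closedBall_iff_norm, not_le] at he
    have : (r' - ‖e - c v‖) / (r' - r) ≤ 0 :=
      div_nonpos_of_nonpos_of_nonneg (by linarith) (by linarith)
    simp only [hθ]
    exact max_eq_left ((min_le_right _ _).trans this)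
  set ψ : V → ℝ := fun y => if y ∈ c.source then θ (c y) * qf E (c y - c v) else 0 with hψ
  refine ⟨B, ψ, hBc, ?_, ?_, ?_, ?_, ?_, ?_⟩
  · rw [mem_interior_iff_mem_nhds]
    have h2 : c ⁻¹' Metric.closedBall (c v) r ∩ c.source ∈ 𝓝 v :=
      inter_mem ((c.continuousAt hv).preimage_mem_nhds (Metric.closedBall_mem_nhds _ hr0))
        (c.open_source.mem_nhds hv)
    refine mem_of_superset h2 fun y hy => ⟨c y, hy.1, c.left_inv hy.2⟩
  · rintro _ ⟨e, he, rfl⟩
    exact (hball (hsub he)).2
  · rintro _ ⟨e, he, rfl⟩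
    exact c.map_target (hball (hsub he)).1
  · rw [continuous_iff_continuousAt]
    intro y
    by_cases hy : y ∈ c.source
    · have h3 : ContinuousAt (fun y => θ (c y) * qf E (c y - c v)) y := by
        have h4 : ContinuousAt c y := c.continuousAt hy
        exact (hθc.continuousAt.comp h4).mul
          (continuous_qf.continuousAt.comp (h4.sub continuousAt_const))
      refine h3.congr ?_
      filter_upwards [c.open_source.mem_nhds hy] with z hz
      simp only [hψ, if_pos hz]
    · have h3 : y ∈ B'ᶜ := by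
        rintro ⟨e, he, rfl⟩
        exact hy (c.map_target (hball he).1)
      have h4 : (fun _ => (0 : ℝ)) =ᶠ[𝓝 y] ψ := by
        filter_upwards [hB'c.isClosed.isOpen_compl.mem_nhds h3] with z hz
        simp only [hψ]
        split_ifs with hzs
        · rw [hθz (c z), zero_mul]
          intro hz'
          exact hz ⟨c z, hz', c.left_inv hzs⟩
        · rfl
      exact continuousAt_const.congr h4
  · intro y
    simp only [hψ]
    split_ifs
    · exact mul_nonneg (hθ0 _) (qf_nonneg _)
    · exact le_rfl
  · rintro _ ⟨e, he, rfl⟩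
    have het : e ∈ c.target := (hball (hsub he)).1
    simp only [hψ, if_pos (c.map_target het), c.right_inv het, hθ1 e he, one_mul]

end Vale.Agent.P300L
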