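import Vale.Agent.P300L.Defs
import Mathlib.Analysis.Complex.MeanValue
import Mathlib.Geometry.Manifold.MFDeriv.FDeriv
import Mathlib.Geometry.Manifold.MFDeriv.SpecificFunctions

open scoped Manifold ContDiff Topology
open Filter Real

namespace Vale.Agent.P300L

variable {E : Type*} [NormedAddCommGroup E] [NormedSpace ℂ E]
  {V : Type*} [TopologicalSpace V] [ChartedSpace E V]
  {Y : Type*} [TopologicalSpace Y] [ChartedSpace E Y]

/-- `g` is holomorphic on the disc of radius `R`. -/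
def DiscOn (E : Type*) [NormedAddCommGroup E] [NormedSpace ℂ E]
    {V : Type*} [TopologicalSpace V] [ChartedSpace E V] (g : ℂ → V) (R : ℝ) : Prop :=
  ∀ z ∈ Metric.ball (0 : ℂ) R, MDifferentiableAt 𝓘(ℂ) 𝓘(ℂ, E) g z

theorem IsDisc.exists_radius {g : ℂ → V} (hg : IsDisc E g) : ∃ R : ℝ, 0 < R ∧ DiscOn E g R :=
  Metric.eventually_nhds_iff_ball.1 hg

theorem DiscOn.continuousOn {g : ℂ → V} {R : ℝ} (hg : DiscOn E g R) :
    ContinuousOn g (Metric.ball 0 R) := fun z hz => (hg z hz).continuousAt.continuousWithinAt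

theorem IsDisc.continuousAt {g : ℂ → V} (hg : IsDisc E g) : ContinuousAt g 0 :=
  (hg.self_of_nhds).continuousAt

theorem sphere_subset_ball {r R : ℝ} (hr : 0 < r) (hrR : r < R) :
    Metric.sphere (0 : ℂ) r ⊆ Metric.ball 0 R := by
  intro z hz
  simp only [mem_sphere_iff_norm, sub_zero] at hz
  simp [hz, hrR]

theorem DiscOn.circleIntegrable {g : ℂ → V} {R r : ℝ} (hg : DiscOn E g R) (hr : 0 < r)
    (hrR : r < R) {F : Type*} [NormedAddCommGroup F] {u : V → F}
    (hu : Continuous u) : CircleIntegrable (fun z => u (g z)) 0 r :=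
  ContinuousOn.circleIntegrable hr.le
    ((hu.comp_continuousOn hg.continuousOn).mono (sphere_subset_ball hr hrR))

theorem DiscOn.circleIntegrable' {g : ℂ → V} {R r : ℝ} (hg : DiscOn E g R) (hr : 0 < r)
    (hrR : r < R) {F : Type*} [NormedAddCommGroup F] {u : V → F} {N : Set V}
    (hu : ContinuousOn u N) (hN : ∀ z ∈ Metric.sphere (0 : ℂ) r, g z ∈ N) :
    CircleIntegrable (fun z => u (g z)) 0 r :=
  ContinuousOn.circleIntegrable hr.le
    (hu.comp (hg.continuousOn.mono (sphere_subset_ball hr hrR)) hN)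

theorem DiscOn.mean {g : ℂ → V} {R r : ℝ} (hg : DiscOn E g R) (hr : 0 < r)
    (hrR : r < R) {f : V → ℂ} (hf : ContMDiff 𝓘(ℂ, E) 𝓘(ℂ) ω f) :
    circleAverage (fun z => f (g z)) 0 r = f (g 0) := by
  have hd : ∀ z ∈ Metric.ball (0 : ℂ) R, DifferentiableAt ℂ (fun z => f (g z)) z := by
    intro z hz
    have h1 : MDifferentiableAt 𝓘(ℂ, E) 𝓘(ℂ) f (g z) :=
      (hf (g z)).mdifferentiableAt (by simp)
    exact (h1.comp z (hg z hz)).differentiableAt
  refine DiffContOnCl.circleAverage (f := fun z => f (g z)) ?_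
  rw [abs_of_pos hr]
  refine DifferentiableOn.diffContOnCl ?_
  intro z hz
  refine (hd z ?_).differentiableWithinAt
  have := Metric.closure_ball_subset_closedBall hz
  simp only [Metric.mem_closedBall, dist_zero_right] at this
  simp only [Metric.mem_ball, dist_zero_right]
  linarith

theorem DiscOn.mean_re {g : ℂ → V} {R r : ℝ} (hg : DiscOn E g R) (hr : 0 < r)
    (hrR : r < R) {f : V → ℂ} (hf : ContMDiff 𝓘(ℂ, E) 𝓘(ℂ) ω f) :
    circleAverage (fun z => (f (g z)).re) 0 r = (f (g 0)).re := by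
  have h := (Complex.reCLM).circleAverage_comp_comm
    (hg.circleIntegrable hr hrR hf.continuous)
  rw [hg.mean hr hrR hf] at h
  simpa [Function.comp_def] using h

theorem norm_circleAverage_le {F : Type*} [NormedAddCommGroup F] [NormedSpace ℝ F]
    {f : ℂ → F} {c : ℂ} {r : ℝ} :
    ‖circleAverage f c r‖ ≤ circleAverage (fun z => ‖f z‖) c r := by
  unfold circleAverage
  rw [norm_smul, smul_eq_mul, Real.norm_of_nonneg (by positivity)]
  gcongr
  exact intervalIntegral.norm_integral_le_integral_norm (by positivity)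

theorem DiscOn.mean_norm {g : ℂ → V} {R r : ℝ} (hg : DiscOn E g R) (hr : 0 < r)
    (hrR : r < R) {f : V → ℂ} (hf : ContMDiff 𝓘(ℂ, E) 𝓘(ℂ) ω f) :
    ‖f (g 0)‖ ≤ circleAverage (fun z => ‖f (g z)‖) 0 r := by
  rw [← hg.mean hr hrR hf]
  exact norm_circleAverage_le

/-- `|f| ^ 2` on a disc. -/
theorem DiscOn.mean_normSq {g : ℂ → V} {R r : ℝ} (hg : DiscOn E g R) (hr : 0 < r)
    (hrR : r < R) {f : V → ℂ} (hf : ContMDiff 𝓘(ℂ, E) 𝓘(ℂ) ω f) :
    ‖f (g 0)‖ ^ 2 + circleAverage (fun z => ‖f (g z) - f (g 0)‖ ^ 2) 0 r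
      = circleAverage (fun z => ‖f (g z)‖ ^ 2) 0 r := by
  set a := f (g 0) with ha
  have hfc := hf.continuous
  have h1 : ∀ z : ℂ, ‖f (g z)‖ ^ 2
      = ‖f (g z) - a‖ ^ 2 + (((starRingEnd ℂ) a * 2 * f (g z)).re - ‖a‖ ^ 2) := by
    intro z
    rw [← Complex.normSq_eq_norm_sq, ← Complex.normSq_eq_norm_sq, ← Complex.normSq_eq_norm_sq]
    simp only [Complex.normSq_apply, Complex.sub_re, Complex.sub_im, Complex.mul_re,
      Complex.mul_im, Complex.conj_re, Complex.conj_im, Complex.re_ofNat, Complex.im_ofNat]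
    ring
  simp_rw [h1]
  have hi1 : CircleIntegrable (fun z => ‖f (g z) - a‖ ^ 2) 0 r :=
    hg.circleIntegrable hr hrR (u := fun v => ‖f v - a‖ ^ 2) (by fun_prop)
  have hi2 : CircleIntegrable (fun z => ((starRingEnd ℂ) a * 2 * f (g z)).re - ‖a‖ ^ 2) 0 r :=
    hg.circleIntegrable hr hrR (u := fun v => ((starRingEnd ℂ) a * 2 * f v).re - ‖a‖ ^ 2)
      (by fun_prop)
  have hi3 : CircleIntegrable (fun z => ((starRingEnd ℂ) a * 2 * f (g z)).re) 0 r :=
    hg.circleIntegrable hr hrR (u := fun v => ((starRingEnd ℂ) a * 2 * f v).re)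
      (by fun_prop)
  rw [circleAverage_fun_add hi1 hi2, circleAverage_fun_sub hi3 (circleIntegrable_const _ _ _),
    circleAverage_const]
  have h3 := hg.mean_re hr hrR (f := fun v => (starRingEnd ℂ) a * 2 * f v)
    (((contDiff_const (c := (starRingEnd ℂ) a * 2)).mul contDiff_id).contMDiff.comp hf)
  rw [h3]
  have : ((starRingEnd ℂ) a * 2 * f (g 0)).re - ‖a‖ ^ 2 = ‖a‖ ^ 2 := by
    rw [← ha, ← Complex.normSq_eq_norm_sq]
    simp only [Complex.normSq_apply, Complex.mul_re,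
      Complex.mul_im, Complex.conj_re, Complex.conj_im, Complex.re_ofNat, Complex.im_ofNat]
    ring
  rw [this]
  ring

theorem hol_add {f f' : V → ℂ} (hf : ContMDiff 𝓘(ℂ, E) 𝓘(ℂ) ω f)
    (hf' : ContMDiff 𝓘(ℂ, E) 𝓘(ℂ) ω f') : ContMDiff 𝓘(ℂ, E) 𝓘(ℂ) ω (fun x => f x + f' x) :=
  ((contDiff_fst.add contDiff_snd).contMDiff).comp (hf.prodMk_space hf')

theorem hol_sub {f f' : V → ℂ} (hf : ContMDiff 𝓘(ℂ, E) 𝓘(ℂ) ω f)
    (hf' : ContMDiff 𝓘(ℂ, E) 𝓘(ℂ) ω f') : ContMDiff 𝓘(ℂ, E) 𝓘(ℂ) ω (fun x => f x - f' x) :=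
  ((contDiff_fst.sub contDiff_snd).contMDiff).comp (hf.prodMk_space hf')

theorem hol_const_mul {f : V → ℂ} (a : ℂ) (hf : ContMDiff 𝓘(ℂ, E) 𝓘(ℂ) ω f) :
    ContMDiff 𝓘(ℂ, E) 𝓘(ℂ) ω (fun x => a * f x) :=
  ((contDiff_const (c := a)).mul contDiff_id).contMDiff.comp hf

theorem hol_sum {ι : Type*} (s : Finset ι) {f : ι → V → ℂ}
    (hf : ∀ i, ContMDiff 𝓘(ℂ, E) 𝓘(ℂ) ω (f i)) :
    ContMDiff 𝓘(ℂ, E) 𝓘(ℂ) ω (fun x => ∑ i ∈ s, f i x) := by
  classical
  induction s using Finset.induction_on with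
  | empty => simpa using contMDiff_const
  | insert a s ha ih => simpa [Finset.sum_insert ha] using hol_add (hf a) ih

/-- Sub-mean value inequality with a fixed radius of holomorphy. -/
theorem eventually_lt_radius {R : ℝ} (hR : 0 < R) : ∀ᶠ r in 𝓝[>] (0 : ℝ), 0 < r ∧ r < R := by
  filter_upwards [self_mem_nhdsWithin, Ioo_mem_nhdsGT hR] with r h1 h2
  exact ⟨h1, h2.2⟩

theorem IsPSH.const (a : ℝ) : IsPSH E (fun _ : V => a) := by
  refine ⟨continuous_const, fun g _ => ?_⟩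
  filter_upwards with r
  rw [circleAverage_const]

theorem IsPSH.add {u v : V → ℝ} (hu : IsPSH E u) (hv : IsPSH E v) :
    IsPSH E (fun x => u x + v x) := by
  refine ⟨hu.1.add hv.1, fun g hg => ?_⟩
  obtain ⟨R, hR, hgR⟩ := hg.exists_radius
  filter_upwards [hu.2 g hg, hv.2 g hg, eventually_lt_radius hR] with r h1 h2 h3
  rw [circleAverage_fun_add (hgR.circleIntegrable h3.1 h3.2 hu.1)
    (hgR.circleIntegrable h3.1 h3.2 hv.1)]
  linarith

theorem IsPSH.sub_const {u : V → ℝ} (hu : IsPSH E u) (a : ℝ) :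
    IsPSH E (fun x => u x - a) := by
  simpa [sub_eq_add_neg] using hu.add (IsPSH.const (E := E) (V := V) (-a))

theorem IsPSH.const_mul {u : V → ℝ} (hu : IsPSH E u) {a : ℝ} (ha : 0 ≤ a) :
    IsPSH E (fun x => a * u x) := by
  refine ⟨continuous_const.mul hu.1, fun g hg => ?_⟩
  filter_upwards [hu.2 g hg] with r h1
  have := circleAverage_fun_smul (𝕜 := ℝ) (a := a) (f := fun z => u (g z)) (c := 0) (R := r)
  simp only [smul_eq_mul] at this
  rw [this]
  exact mul_le_mul_of_nonneg_left h1 ha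

theorem IsPSH.max {u v : V → ℝ} (hu : IsPSH E u) (hv : IsPSH E v) :
    IsPSH E (fun x => max (u x) (v x)) := by
  refine ⟨hu.1.max hv.1, fun g hg => ?_⟩
  obtain ⟨R, hR, hgR⟩ := hg.exists_radius
  filter_upwards [hu.2 g hg, hv.2 g hg, eventually_lt_radius hR] with r h1 h2 h3
  have hm := hgR.circleIntegrable h3.1 h3.2 (hu.1.max hv.1)
  refine max_le (h1.trans ?_) (h2.trans ?_)
  · exact circleAverage_mono (hgR.circleIntegrable h3.1 h3.2 hu.1) hm
      (fun x _ => le_max_left _ _)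
  · exact circleAverage_mono (hgR.circleIntegrable h3.1 h3.2 hv.1) hm
      (fun x _ => le_max_right _ _)

theorem IsPSH.normSq {f : V → ℂ} (hf : ContMDiff 𝓘(ℂ, E) 𝓘(ℂ) ω f) :
    IsPSH E (fun x => ‖f x‖ ^ 2) := by
  refine ⟨by have := hf.continuous; fun_prop, fun g hg => ?_⟩
  obtain ⟨R, hR, hgR⟩ := hg.exists_radius
  filter_upwards [eventually_lt_radius hR] with r h3
  rw [← hgR.mean_normSq h3.1 h3.2 hf]
  have := circleAverage_nonneg_of_nonneg (c := 0) (R := r)
    (f := fun z => ‖f (g z) - f (g 0)‖ ^ 2) (fun x _ => by positivity)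
  linarith

theorem IsPSH.finset_sum {ι : Type*} (s : Finset ι) {u : ι → V → ℝ}
    (hu : ∀ i ∈ s, IsPSH E (u i)) : IsPSH E (fun x => ∑ i ∈ s, u i x) := by
  classical
  induction s using Finset.induction_on with
  | empty => simpa using IsPSH.const (E := E) (V := V) 0
  | insert a s ha ih =>
    have h1 := hu a (Finset.mem_insert_self _ _)
    have h2 := ih (fun i hi => hu i (Finset.mem_insert_of_mem hi))
    have := h1.add h2
    simpa [Finset.sum_insert ha] using this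

/-- Pull-back of a plurisubharmonic function under a holomorphic map. -/
theorem IsPSH.comp {u : Y → ℝ} (hu : IsPSH E u) {p : V → Y}
    (hp : ∀ x, MDifferentiableAt 𝓘(ℂ, E) 𝓘(ℂ, E) p x) :
    IsPSH E (fun x => u (p x)) := by
  have hc : Continuous p := continuous_iff_continuousAt.2 fun x => (hp x).continuousAt
  refine ⟨hu.1.comp hc, fun g hg => ?_⟩
  refine hu.2 (fun z => p (g z)) ?_
  filter_upwards [hg] with z hz
  exact (hp (g z)).comp z hz

end Vale.Agent.P300L
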