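import Vale.Agent.P300L.Loc

open scoped Manifold ContDiff Topology
open Filter Real Set Vale.Agent.P300

namespace Vale.Agent.P300L

variable {E : Type*} [NormedAddCommGroup E] [NormedSpace ℂ E]
  {V : Type*} [TopologicalSpace V] [ChartedSpace E V]

/-- Chart transitions are locally Lipschitz. -/
theorem chart_transition [IsManifold 𝓘(ℂ, E) ω V] {v x : V} (hx : x ∈ (chartAt E v).source) :
    ∃ K : ℝ, 0 < K ∧ ∃ W ∈ 𝓝 x, ∀ y ∈ W, ∀ y' ∈ W,
      ‖chartAt E x y' - chartAt E x y‖ ≤ K * ‖chartAt E v y' - chartAt E v y‖ := by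
  set c := chartAt E v with hc
  set c' := chartAt E x with hc'
  have ht : c x ∈ c.target := c.map_source hx
  have h1 : ContMDiffAt 𝓘(ℂ, E) 𝓘(ℂ, E) ω c.symm (c x) :=
    (contMDiffOn_chart_symm (I := 𝓘(ℂ, E)) (n := ω) (x := v)).contMDiffAt
      (c.open_target.mem_nhds ht)
  have h2 : ContMDiffAt 𝓘(ℂ, E) 𝓘(ℂ, E) ω c' (c.symm (c x)) := by
    rw [c.left_inv hx]
    exact (contMDiffOn_chart (I := 𝓘(ℂ, E)) (n := ω) (x := x)).contMDiffAt
      (c'.open_source.mem_nhds (mem_chart_source E x))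
  have h3 : ContDiffAt ℂ ω (fun e => c' (c.symm e)) (c x) :=
    (h2.comp (c x) h1).contDiffAt
  obtain ⟨K, s, hs, hK⟩ := (h3.hasStrictFDerivAt (by simp)).exists_lipschitzOnWith
  refine ⟨max (K : ℝ) 1, lt_max_of_lt_right one_pos, c.source ∩ c ⁻¹' s,
    inter_mem (c.open_source.mem_nhds hx) ((c.continuousAt hx).preimage_mem_nhds hs), ?_⟩
  intro y hy y' hy'
  have a2 := hK.dist_le_mul (c y') hy'.2 (c y) hy.2
  rw [dist_eq_norm, dist_eq_norm, c.left_inv hy.1, c.left_inv hy'.1] at a2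
  exact a2.trans (mul_le_mul_of_nonneg_right (le_max_left _ _) (norm_nonneg _))

/-- Finitely many functions separate the frontier of a compact set from a point. -/
theorem exists_finite_sep [T2Space V] {S : Set (V → ℂ)} (hS : ∀ f ∈ S, Continuous f) {v : V}
    {B : Set V} (hBc : IsCompact B) (hB : ∀ z ∈ frontier B, ∃ f ∈ S, f z ≠ f v) :
    ∃ (F : Finset (V → ℂ)) (a : ℝ), (∀ f ∈ F, f ∈ S) ∧ 0 < a ∧
      ∀ z ∈ frontier B, ∃ f ∈ F, a ≤ ‖f z - f v‖ := by
  classical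
  have hfr : IsCompact (frontier B) :=
    hBc.of_isClosed_subset isClosed_frontier (hBc.isClosed.frontier_subset)
  choose! f hf hfz using hB
  have hU : ∀ z ∈ frontier B, {z' | ‖f z z - f z v‖ / 2 < ‖f z z' - f z v‖} ∈ 𝓝 z := by
    intro z hz
    have hc : Continuous fun z' => ‖f z z' - f z v‖ := by
      have := hS _ (hf z hz)
      fun_prop
    refine (isOpen_lt continuous_const hc).mem_nhds ?_
    have : 0 < ‖f z z - f z v‖ := norm_pos_iff.2 (sub_ne_zero.2 (hfz z hz))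
    show ‖f z z - f z v‖ / 2 < ‖f z z - f z v‖
    linarith
  obtain ⟨t, ht, htc⟩ := hfr.elim_nhds_subcover _ hU
  obtain ⟨a, ha, hat⟩ := exists_pos_le t (fun z => ‖f z z - f z v‖ / 2) (fun z hz => by
    have : 0 < ‖f z z - f z v‖ := norm_pos_iff.2 (sub_ne_zero.2 (hfz z (ht z hz)))
    positivity)
  refine ⟨t.image f, a, ?_, ha, ?_⟩
  · intro g hg
    obtain ⟨z, hz, rfl⟩ := Finset.mem_image.1 hg
    exact hf z (ht z hz)
  · intro z' hz'
    have := htc hz'
    simp only [mem_iUnion] at this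
    obtain ⟨z, hzt, hz⟩ := this
    exact ⟨f z, Finset.mem_image_of_mem _ hzt, (hat z hzt).trans (le_of_lt hz)⟩

/-- Mean value of the local functions. -/
theorem psi_mean [FiniteDimensional ℂ E] [IsManifold 𝓘(ℂ, E) ω V] {v : V} {B : Set V}
    {ψ : V → ℝ}
    (hBs : B ⊆ (chartAt E v).source)
    (hψB : ∀ y ∈ B, ψ y = qf E (chartAt E v y - chartAt E v v))
    {g : ℂ → V} {R r : ℝ} (hg : DiscOn E g R) (hgB : ∀ z ∈ Metric.ball (0 : ℂ) R, g z ∈ interior B)
    (hr : 0 < r) (hrR : r < R) :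
    ψ (g 0) + circleAverage (fun z => qf E (chartAt E v (g z) - chartAt E v (g 0))) 0 r
      = circleAverage (fun z => ψ (g z)) 0 r := by
  have hR : 0 < R := hr.trans hrR
  have hd : ∀ z ∈ Metric.ball (0 : ℂ) R,
      DifferentiableAt ℂ (fun z => chartAt E v (g z) - chartAt E v v) z := by
    intro z hz
    have h1 : MDifferentiableAt 𝓘(ℂ, E) 𝓘(ℂ, E) (chartAt E v) (g z) :=
      mdifferentiableAt_atlas (chart_mem_atlas E v) (hBs (interior_subset (hgB z hz)))
    exact ((h1.comp z (hg z hz)).differentiableAt).sub_const _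
  have h2 := mean_qf (E := E) (h := fun z => chartAt E v (g z) - chartAt E v v) hd hr hrR
  have h3 : circleAverage (fun z => ψ (g z)) 0 r
      = circleAverage (fun z => qf E (chartAt E v (g z) - chartAt E v v)) 0 r := by
    refine circleAverage_congr_sphere fun z hz => ?_
    rw [abs_of_pos hr] at hz
    exact hψB _ (interior_subset (hgB z (sphere_subset_ball hr hrR hz)))
  simp only [sub_sub_sub_cancel_right] at h2
  rw [h3, ← h2, hψB _ (interior_subset (hgB 0 (Metric.mem_ball_self hR)))]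

/-- Existence of plurisubharmonic functions, strict on a sublevel set. -/
theorem exists_strict [FiniteDimensional ℂ E] [IsManifold 𝓘(ℂ, E) ω V] [T2Space V]
    [LocallyConnectedSpace V] [LocallyCompactSpace V]
    {ρ : V → ℝ} (hρ : IsPSH E ρ) (hρe : IsExhaustion ρ) {S : Set (V → ℂ)}
    (hS : ∀ f ∈ S, ContMDiff 𝓘(ℂ, E) 𝓘(ℂ) ω f)
    (hsep : ∀ v : V, ∃ U ∈ 𝓝 v, ∀ w ∈ U, w ≠ v → ∃ f ∈ S, f w ≠ f v) (a : ℝ) :
    ∃ s : V → ℝ, IsPSH E s ∧ (∀ x, 0 ≤ s x) ∧ ∀ x, ρ x < a → StrictAt E s x := by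
  classical
  -- local data
  have h1 : ∀ v : V, ∃ (B N : Set V) (ψ : V → ℝ) (F : Finset (V → ℂ)) (e : ℝ), IsCompact B ∧
      B ⊆ (chartAt E v).source ∧ Continuous ψ ∧ (∀ y, 0 ≤ ψ y) ∧
      (∀ y ∈ B, ψ y = qf E (chartAt E v y - chartAt E v v)) ∧
      IsOpen N ∧ v ∈ N ∧ closure N ⊆ interior B ∧ (∀ f ∈ F, f ∈ S) ∧ 0 < e ∧
      ∀ w ∈ N, ∀ z ∈ frontier B, ∃ f ∈ F, e ≤ ‖f z - f w‖ := by
    intro v
    obtain ⟨U, hU, hUS⟩ := hsep v
    obtain ⟨B, ψ, hBc, hBi, hBU, hBs, hψc, hψ0, hψB⟩ := exists_bump (E := E) v hU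
    obtain ⟨F, e, hF, he, hFe⟩ := exists_finite_sep (S := S) (fun f hf => (hS f hf).continuous)
      (v := v) hBc (by
      intro z hz
      refine hUS z (hBU (hBc.isClosed.frontier_subset hz)) ?_
      rintro rfl
      exact hz.2 hBi)
    have hW : interior B ∩ {w | ∀ f ∈ F, ‖f w - f v‖ < e / 2} ∈ 𝓝 v := by
      refine inter_mem (isOpen_interior.mem_nhds hBi) ?_
      have : ∀ f ∈ F, ∀ᶠ w in 𝓝 v, ‖f w - f v‖ < e / 2 := by
        intro f hf
        have := Metric.tendsto_nhds.1 ((hS f (hF f hf)).continuous.tendsto v) (e / 2)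
          (by linarith)
        simpa [dist_eq_norm] using this
      exact (Filter.eventually_all_finset _).2 this
    obtain ⟨C, hC, hCc, hCW⟩ := exists_mem_nhds_isClosed_subset hW
    have hcl : closure (interior C) ⊆ C := closure_minimal interior_subset hCc
    refine ⟨B, interior C, ψ, F, e / 2, hBc, hBs, hψc, hψ0, hψB, isOpen_interior,
      mem_interior_iff_mem_nhds.2 hC, fun y hy => (hCW (hcl hy)).1, hF, by positivity, ?_⟩
    intro w hw z hz
    obtain ⟨f, hf, hfe⟩ := hFe z hz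
    have h2 := (hCW (interior_subset hw)).2 f hf
    refine ⟨f, hf, ?_⟩
    have h3 : ‖f z - f v‖ ≤ ‖f z - f w‖ + ‖f w - f v‖ := by
      calc ‖f z - f v‖ = ‖(f z - f w) + (f w - f v)‖ := by ring_nf
        _ ≤ _ := norm_add_le _ _
    linarith
  choose B N ψ F e hBc hBs hψc hψ0 hψB hNo hvN hNB hF he hFe using h1
  obtain ⟨t, _, ht⟩ := (hρe (a + 1)).elim_nhds_subcover N fun v _ => (hNo v).mem_nhds (hvN v)
  obtain ⟨δ, hδ, hδt⟩ := exists_pos_le t e fun v _ => he v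
  -- the finite family
  set G : Finset (V → ℂ) := t.biUnion F with hG
  have hGS : ∀ f ∈ G, f ∈ S := by
    intro f hf
    obtain ⟨v, _, hfv⟩ := Finset.mem_biUnion.1 hf
    exact hF v f hfv
  set φ : {f : V → ℂ // f ∈ G} → V → ℂ := fun f => f.1 with hφ
  have hloc : LocBdd E φ :=
    { hol := fun f => hS f.1 (hGS f.1 f.2)
      bdd := fun Q hQ => by
        have h2 : ∀ f : {f : V → ℂ // f ∈ G}, ∃ C : ℝ, ∀ x ∈ Q, ‖f.1 x‖ ≤ C := by
          intro f
          obtain ⟨C, hC⟩ := hQ.bddAbove_image (f := fun x => ‖f.1 x‖)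
            (hS f.1 (hGS f.1 f.2)).continuous.norm.continuousOn
          exact ⟨C, fun x hx => hC ⟨x, hx, rfl⟩⟩
        choose C hC using h2
        refine ⟨∑ f, |C f|, Finset.sum_nonneg fun _ _ => abs_nonneg _, fun f x hx => ?_⟩
        exact (hC f x hx).trans ((le_abs_self _).trans
          (Finset.single_le_sum (f := fun f => |C f|) (fun _ _ => abs_nonneg _)
            (Finset.mem_univ f))) }
  set J : Finset {f : V → ℂ // f ∈ G} := Finset.univ with hJ
  have hsepJ : ∀ v ∈ t, ∀ w ∈ N v, ∀ z ∈ frontier (B v),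
      δ ^ 2 ≤ ∑ i ∈ J, ‖φ i z - φ i w‖ ^ 2 := by
    intro v hv w hw z hz
    obtain ⟨f, hf, hfe⟩ := hFe v w hw z hz
    have h2 : δ ≤ ‖f z - f w‖ := (hδt v hv).trans hfe
    calc δ ^ 2 ≤ ‖f z - f w‖ ^ 2 := by gcongr
      _ ≤ _ := Finset.single_le_sum (f := fun i => ‖φ i z - φ i w‖ ^ 2)
          (fun _ _ => by positivity) (Finset.mem_univ ⟨f, Finset.mem_biUnion.2 ⟨v, hv, hf⟩⟩)
  -- bounds
  obtain ⟨C1, hC1, hC1'⟩ := hloc.bdd _ (hρe (a + 1))
  have hQB : IsCompact (⋃ v ∈ t, B v) := t.finite_toSet.isCompact_biUnion fun v _ => hBc v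
  obtain ⟨C2, hC2, hC2'⟩ := hloc.bdd _ hQB
  have hΨc : Continuous fun y => ∑ v ∈ t, ψ v y := continuous_finsetSum _ fun v _ => hψc v
  have hψΨ : ∀ v ∈ t, ∀ y, ψ v y ≤ ∑ v ∈ t, ψ v y := fun v hv y =>
    Finset.single_le_sum (f := fun v => ψ v y) (fun v _ => hψ0 v y) hv
  obtain ⟨C3', hC3'⟩ := hQB.bddAbove_image hΨc.continuousOn
  obtain ⟨C3, hC3, hC30⟩ : ∃ C3 : ℝ, (∀ v ∈ t, ∀ y ∈ ⋃ v ∈ t, B v, ψ v y ≤ C3) ∧ 0 ≤ C3 :=
    ⟨max C3' 0, fun v hv y hy => (hψΨ v hv y).trans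
      ((hC3' ⟨y, hy, rfl⟩).trans (le_max_left _ _)), le_max_right _ _⟩
  obtain ⟨A, hA0, hA⟩ : ∃ A : ℝ, 0 ≤ A ∧ A * δ ^ 2 = 1 + C3 :=
    ⟨(1 + C3) / δ ^ 2, by positivity, by field_simp⟩
  obtain ⟨M, hM⟩ : ∃ M : ℝ, M = A * (J.card * C2 ^ 2) + C3 + 1 := ⟨_, rfl⟩
  have hM0 : 0 < M := by
    rw [hM]
    positivity
  -- glueing data
  let I := {q : V × V // q.2 ∈ t ∧ q.1 ∈ N q.2 ∧ ρ q.1 < a + 1}
  set O : I → Set V := fun q => interior (B q.1.2) with hO
  set L : I → V → ℝ := fun q y => lfun φ J A q.1.1 y + ψ q.1.2 y with hL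
  set P : V → ℝ := fun x => M * (ρ x - a) with hP
  have hPpsh : IsPSH E P := (hρ.sub_const a).const_mul hM0.le
  have hOo : ∀ q, IsOpen (O q) := fun q => isOpen_interior
  have hbdd : ∀ y, BddAbove {t | ∃ q, y ∈ O q ∧ L q y = t} := by
    intro y
    refine ⟨A * (J.card * (supn φ y) ^ 2) + ∑ v ∈ t, ψ v y, ?_⟩
    rintro _ ⟨q, _, rfl⟩
    exact add_le_add (lfun_le hA0 fun i => hloc.le_supn i y) (hψΨ _ q.2.1 y)
  have hLc : ∀ q, Continuous (L q) := fun q => (hloc.lfun_continuous _).add (hψc _)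
  have heq : ∀ y₀, ∀ κ > 0, ∀ᶠ y in 𝓝 y₀, ∀ q, |L q y - L q y₀| ≤ κ := by
    intro y₀ κ hκ
    set D : ℝ := A * (J.card * (2 * C1)) + 1 with hD
    have hD0 : 0 < D := by positivity
    have h2 : ∀ v ∈ t, ∀ᶠ y in 𝓝 y₀, |ψ v y - ψ v y₀| < κ / 2 := by
      intro v _
      have := Metric.tendsto_nhds.1 ((hψc v).tendsto y₀) (κ / 2) (by linarith)
      simpa [Real.dist_eq] using this
    filter_upwards [hloc.pd_eventually y₀ (show 0 < κ / 2 / D by positivity),
      (Filter.eventually_all_finset _).2 h2] with y hy hy2 q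
    have h3 : ∀ i, ‖φ i q.1.1‖ ≤ C1 := fun i => hC1' i _ (show ρ q.1.1 ≤ a + 1 from q.2.2.2.le)
    have h4 := hloc.lfun_equicont (J := J) hA0 hC1 h3 hy
    have h5 := hy2 _ q.2.1
    have h6 : A * (J.card * (2 * C1)) * (κ / 2 / D) ≤ κ / 2 := by
      calc A * (J.card * (2 * C1)) * (κ / 2 / D) = (D - 1) * (κ / 2 / D) := by rw [hD]; ring
        _ ≤ D * (κ / 2 / D) := by gcongr; linarith
        _ = κ / 2 := by field_simp
    calc |L q y - L q y₀| = |(lfun φ J A q.1.1 y - lfun φ J A q.1.1 y₀) +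
          (ψ q.1.2 y - ψ q.1.2 y₀)| := by rw [hL]; ring_nf
      _ ≤ |lfun φ J A q.1.1 y - lfun φ J A q.1.1 y₀| + |ψ q.1.2 y - ψ q.1.2 y₀| := abs_add_le _ _
      _ ≤ κ := by linarith
  have hcore : ∀ y₀, ∃ N' ∈ 𝓝 y₀, ∀ q : I, q.1.1 ∈ N' → N' ⊆ O q := by
    intro y₀
    have h2 : ∀ v ∈ t, ∃ W ∈ 𝓝 y₀, (W ∩ N v).Nonempty → W ⊆ interior (B v) := by
      intro v _
      by_cases hy : y₀ ∈ closure (N v)
      · exact ⟨interior (B v), isOpen_interior.mem_nhds (hNB v hy), fun _ => Subset.rfl⟩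
      · refine ⟨(closure (N v))ᶜ, isClosed_closure.isOpen_compl.mem_nhds hy, ?_⟩
        rintro ⟨z, hz1, hz2⟩
        exact (hz1 (subset_closure hz2)).elim
    choose! W hW hW' using h2
    refine ⟨⋂ v ∈ t, W v, (Filter.biInter_finset_mem t).2 hW, fun q hq => ?_⟩
    have h3 : q.1.1 ∈ W q.1.2 := mem_iInter₂.1 hq _ q.2.1
    exact (biInter_subset_of_mem q.2.1).trans (hW' _ q.2.1 ⟨_, h3, q.2.2.1⟩)
  have hmargin : ∀ q, ∀ y ∈ frontier (O q), L q y + 1 ≤ P y ∨
      ∃ q' : I, q'.1.1 = y ∧ L q y + 1 ≤ L q' y := by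
    intro q y hy
    have hyB : y ∈ frontier (B q.1.2) := frontier_interior_subset hy
    have hyB' : y ∈ B q.1.2 := (hBc _).isClosed.frontier_subset hyB
    have hyU : y ∈ ⋃ v ∈ t, B v := mem_biUnion (show q.1.2 ∈ (t : Set V) from q.2.1) hyB'
    have hψ3 : ψ q.1.2 y ≤ C3 := hC3 _ q.2.1 y hyU
    by_cases hρy : ρ y < a + 1
    · right
      have h2 := ht (show y ∈ {v | ρ v ≤ a + 1} from hρy.le)
      simp only [mem_iUnion] at h2
      obtain ⟨v', hv't, hyv'⟩ := h2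
      refine ⟨⟨(y, v'), hv't, hyv', hρy⟩, rfl, ?_⟩
      have h3 := lfun_margin hA0 (hsepJ _ q.2.1 _ q.2.2.1 y hyB)
      have h4 := hψ0 v' y
      simp only [hL]
      linarith
    · left
      rw [not_lt] at hρy
      have h3 : lfun φ J A q.1.1 y ≤ A * (J.card * C2 ^ 2) := lfun_le hA0 fun i => hC2' i y hyU
      have h4 : M * 1 ≤ M * (ρ y - a) := mul_le_mul_of_nonneg_left (by linarith) hM0.le
      simp only [hL, hP]
      linarith
  -- mean values
  have hmv : ∀ g : ℂ → V, IsDisc E g → ∀ R' > 0, ∀ᶠ r in 𝓝[>] (0 : ℝ), ∀ q : I,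
      (∀ z ∈ Metric.ball (0 : ℂ) R', g z ∈ O q) →
      L q (g 0) + circleAverage (fun z =>
        qf E (chartAt E q.1.2 (g z) - chartAt E q.1.2 (g 0))) 0 r
        = circleAverage (fun z => L q (g z)) 0 r := by
    intro g hg R' hR'
    obtain ⟨R, hR, hgR⟩ := hg.exists_radius
    filter_upwards [eventually_lt_radius (lt_min hR hR')] with r hr q hq
    have hr1 : r < R := hr.2.trans_le (min_le_left _ _)
    have hgm : DiscOn E g (min R R') := fun z hz =>
      hgR z (Metric.ball_subset_ball (min_le_left _ _) hz)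
    have h2 := psi_mean (hBs q.1.2) (hψB q.1.2) hgm
      (fun z hz => hq z (Metric.ball_subset_ball (min_le_right _ _) hz)) hr.1 hr.2
    have h3 := hloc.lfun_mean (J := J) (A := A) hgR hr.1 hr1 q.1.1 0
    simp only [add_zero] at h3
    have h4 : circleAverage (fun z => L q (g z)) 0 r
        = circleAverage (fun z => lfun φ J A q.1.1 (g z)) 0 r
          + circleAverage (fun z => ψ q.1.2 (g z)) 0 r :=
      circleAverage_fun_add (hgR.circleIntegrable hr.1 hr1 (hloc.lfun_continuous _))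
        (hgR.circleIntegrable hr.1 hr1 (hψc _))
    rw [h4, h3, ← h2]
    simp only [hL]
    ring
  have hmean : ∀ g : ℂ → V, IsDisc E g → ∀ R' > 0, ∀ᶠ r in 𝓝[>] (0 : ℝ), ∀ q : I,
      (∀ z ∈ Metric.ball (0 : ℂ) R', g z ∈ O q) →
      L q (g 0) ≤ circleAverage (fun z => L q (g z)) 0 r := by
    intro g hg R' hR'
    filter_upwards [hmv g hg R' hR'] with r hr q hq
    rw [← hr q hq]
    have := circleAverage_nonneg_of_nonneg (c := 0) (R := r)
      (f := fun z => qf E (chartAt E q.1.2 (g z) - chartAt E q.1.2 (g 0)))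
      (fun z _ => qf_nonneg (E := E) _)
    linarith
  have hglue := glue_isPSH (c := fun q : I => q.1.1) hPpsh hOo hbdd hLc heq hcore hmargin hmean
  have hpos : ∀ x, ρ x < a + 1 → 0 ≤ glue P O L x := by
    intro x hx
    have h2 := ht (show x ∈ {v | ρ v ≤ a + 1} from hx.le)
    simp only [mem_iUnion] at h2
    obtain ⟨v', hv't, hyv'⟩ := h2
    have h3 : x ∈ O ⟨(x, v'), hv't, hyv', hx⟩ := hNB v' (subset_closure hyv')
    refine le_trans ?_ (le_glue_right (P := P) hbdd h3)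
    exact add_nonneg (lfun_self_nonneg hA0 x) (hψ0 v' x)
  refine ⟨glue P O L, hglue, fun x => ?_, fun x hx => ?_⟩
  · by_cases hx : ρ x < a + 1
    · exact hpos x hx
    · rw [not_lt] at hx
      refine le_trans ?_ (le_glue_left (P := P) hbdd x)
      exact mul_nonneg hM0.le (by linarith)
  · -- strictness
    obtain ⟨cb, hcb, hcb'⟩ := exists_qf_bound E
    have h2 : ∀ v : V, ∃ (k : ℝ) (W : Set V), 0 < k ∧ W ∈ 𝓝 x ∧
        ((W ∩ interior (B v)).Nonempty → ∀ y ∈ W, ∀ y' ∈ W,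
          k * ‖chartAt E x y' - chartAt E x y‖ ^ 2
            ≤ qf E (chartAt E v y' - chartAt E v y)) := by
      intro v
      by_cases hxv : x ∈ (chartAt E v).source
      · obtain ⟨K, hK, W, hW, hKW⟩ := chart_transition hxv
        refine ⟨cb / K ^ 2, W, by positivity, hW, fun _ y hy y' hy' => ?_⟩
        refine le_trans ?_ (hcb' _)
        have h3 := hKW y hy y' hy'
        calc cb / K ^ 2 * ‖chartAt E x y' - chartAt E x y‖ ^ 2
            ≤ cb / K ^ 2 * (K * ‖chartAt E v y' - chartAt E v y‖) ^ 2 := by gcongr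
          _ = cb * ‖chartAt E v y' - chartAt E v y‖ ^ 2 := by field_simp
      · refine ⟨1, (B v)ᶜ, one_pos,
          (hBc v).isClosed.isOpen_compl.mem_nhds (fun h => hxv (hBs v h)), ?_⟩
        rintro ⟨z, hz1, hz2⟩
        exact (hz1 (interior_subset hz2)).elim
    choose k W hk hW hkW using h2
    obtain ⟨c₀, hc₀, hc₀t⟩ := exists_pos_le t k fun v _ => hk v
    have hWx : (⋂ v ∈ t, W v) ∩ (chartAt E x).source ∈ 𝓝 x :=
      inter_mem ((Filter.biInter_finset_mem t).2 fun v _ => hW v)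
        ((chartAt E x).open_source.mem_nhds (mem_chart_source E x))
    have hPx : P x < glue P O L x := by
      refine lt_of_lt_of_le ?_ (hpos x (by linarith))
      exact mul_neg_of_pos_of_neg hM0 (by linarith)
    refine ⟨c₀, hc₀, glue_strictAt (c := fun q : I => q.1.1) hPpsh hOo hbdd hLc heq hcore
      hmargin hglue.1 hPx ?_⟩
    filter_upwards [eventually_mem_nhds_iff.2 hWx] with y hy g hg hgy R' hR'
    subst hgy
    obtain ⟨R, hR, hgR⟩ := hg.exists_radius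
    obtain ⟨R'', hR'', hgR''⟩ : ∃ R'' > 0, ∀ z ∈ Metric.ball (0 : ℂ) R'',
        g z ∈ (⋂ v ∈ t, W v) ∩ (chartAt E x).source :=
      Metric.eventually_nhds_iff_ball.1 (hg.continuousAt.eventually hy)
    filter_upwards [hmv g hg R' hR', eventually_lt_radius hR, eventually_lt_radius hR'',
      eventually_lt_radius hR'] with r h3 h4 h5 h6 q hq
    rw [← h3 q hq]
    refine add_le_add le_rfl ?_
    have hsph : ∀ z ∈ Metric.sphere (0 : ℂ) r, g z ∈ (⋂ v ∈ t, W v) ∩ (chartAt E x).source :=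
      fun z hz => hgR'' z (sphere_subset_ball h5.1 h5.2 hz)
    have hg0 : g 0 ∈ (⋂ v ∈ t, W v) ∩ (chartAt E x).source := mem_of_mem_nhds hy
    have hW1 : ∀ {y}, y ∈ (⋂ v ∈ t, W v) → y ∈ W q.1.2 := fun {y} hy =>
      mem_iInter₂.1 hy _ q.2.1
    have hne : (W q.1.2 ∩ interior (B q.1.2)).Nonempty :=
      ⟨g 0, hW1 hg0.1, hq 0 (Metric.mem_ball_self hR')⟩
    have e2 := circleAverage_fun_smul (𝕜 := ℝ) (a := c₀)
      (f := fun z => ‖chartAt E x (g z) - chartAt E x (g 0)‖ ^ 2) (c := 0) (R := r)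
    simp only [smul_eq_mul] at e2
    rw [← e2]
    refine circleAverage_mono ?_ ?_ fun z hz => ?_
    · refine hgR.circleIntegrable' h4.1 h4.2
        (u := fun v => c₀ * ‖chartAt E x v - chartAt E x (g 0)‖ ^ 2)
        (N := (chartAt E x).source) ?_ (fun z hz => (hsph z hz).2)
      exact continuousOn_const.mul
        (((chartAt E x).continuousOn.sub continuousOn_const).norm.pow 2)
    · refine hgR.circleIntegrable' h4.1 h4.2
        (u := fun v => qf E (chartAt E q.1.2 v - chartAt E q.1.2 (g 0)))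
        (N := (chartAt E q.1.2).source) ?_ (fun z hz => hBs _ (interior_subset
          (hq z (sphere_subset_ball h6.1 h6.2 hz))))
      exact continuous_qf.comp_continuousOn
        ((chartAt E q.1.2).continuousOn.sub continuousOn_const)
    · rw [abs_of_pos h4.1] at hz
      have h7 := hkW q.1.2 hne (g 0) (hW1 hg0.1) (g z) (hW1 (hsph z hz).1)
      refine le_trans ?_ h7
      exact mul_le_mul_of_nonneg_right (hc₀t _ q.2.1) (by positivity)

end Vale.Agent.P300L
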