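import Vale.Agent.P300L.SGlue
import Mathlib.Analysis.LocallyConvex.SeparatingDual
import Mathlib.Analysis.LocallyConvex.HahnBanach

open scoped Manifold ContDiff Topology
open Filter Real Set Vale.Agent.P300

namespace Vale.Agent.P300L

variable {E : Type*} [NormedAddCommGroup E] [NormedSpace ℂ E]
  {V : Type*} [TopologicalSpace V] [ChartedSpace E V]
  {Y : Type*} [TopologicalSpace Y] [ChartedSpace E Y]

/-- A manifold with a plurisubharmonic exhaustion and holomorphic functions whose common level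
sets are discrete has a strictly plurisubharmonic exhaustion. -/
theorem exists_strict_exhaustion_of_isolated [FiniteDimensional ℂ E] [IsManifold 𝓘(ℂ, E) ω V]
    [T2Space V] [SigmaCompactSpace V]
    {ρ : V → ℝ} (hρ : IsPSH E ρ) (hρe : IsExhaustion ρ) {S : Set (V → ℂ)}
    (hS : ∀ f ∈ S, ContMDiff 𝓘(ℂ, E) 𝓘(ℂ) ω f)
    (hsep : ∀ v : V, ∃ U ∈ 𝓝 v, ∀ w ∈ U, w ≠ v → ∃ f ∈ S, f w ≠ f v) :
    ∃ ρ' : V → ℝ, IsStrictlyPSH E ρ' ∧ IsExhaustion ρ' := by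
  have hpr : ProperSpace E := FiniteDimensional.proper ℂ E
  have hlc : LocallyCompactSpace V := ChartedSpace.locallyCompactSpace E V
  have hlcs : LocallyConnectedSpace V := ChartedSpace.locallyConnectedSpace E V
  have hb : ∀ K : Set V, IsCompact K → ∃ a : ℝ, ∀ x ∈ K, ρ x ≤ a := by
    intro K hK
    obtain ⟨a, ha⟩ := hK.bddAbove_image hρ.1.continuousOn
    exact ⟨a, fun x hx => ha ⟨x, hx, rfl⟩⟩
  obtain ⟨ρ', h1, h2, h3⟩ := exists_exhaustion_aux (E := E) (V := V)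
    (fun K hK => by
      obtain ⟨a, ha⟩ := hb K hK
      refine ⟨fun x => ρ x - a, hρ.sub_const a, fun x hx => ?_, {x | ρ x ≤ a + 1}, hρe _,
        fun x hx => ?_⟩
      · have := ha x hx
        linarith
      · have : ¬ ρ x ≤ a + 1 := hx
        linarith)
    (StrictAt E)
    (fun _ _ _ h h' => h.congr h') (fun _ _ _ h h' h'' => h.add h' h'')
    (fun _ _ _ h h' => h.const_mul h') (by
      intro K hK
      obtain ⟨a, ha⟩ := hb K hK
      obtain ⟨s, hs, hs0, hsa⟩ := exists_strict hρ hρe hS hsep (a + 1)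
      refine ⟨s, hs, hs0, fun x hx => hsa x ?_⟩
      have := ha x hx
      linarith)
  exact ⟨ρ', ⟨h1.1, h3⟩, h2⟩

/-- Part (C). -/
theorem cover_strict_exhaustion' [FiniteDimensional ℂ E] [IsManifold 𝓘(ℂ, E) ω V] [T2Space V]
    [SigmaCompactSpace V]
    {p : V → Y} (hp : IsHolomorphicCovering E p) (hG : IsGaloisCovering p)
    {ρ : Y → ℝ} (hρ : IsPSH E ρ) (hρe : IsExhaustion ρ)
    (hsep : ∀ v : V, ∃ U ∈ 𝓝 v, ∀ w ∈ U, w ≠ v → ∃ f, IsLipHol E p f ∧ f w ≠ f v) :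
    ∃ ρ' : V → ℝ, IsStrictlyPSH E ρ' ∧ IsExhaustion ρ' := by
  obtain ⟨ρ₁, h1, h2⟩ := cover_exhaustion hp hG hρ hρe (fun v => by
    obtain ⟨U, hU, hUS⟩ := hsep v
    obtain ⟨B, -, hBc, hBi, hBU, -, -, -, -⟩ := exists_bump (E := E) v hU
    refine ⟨B, mem_interior_iff_mem_nhds.1 hBi, hBc, fun z hz => ?_⟩
    refine hUS z (hBU (hBc.isClosed.frontier_subset hz)) ?_
    rintro rfl
    exact hz.2 hBi)
  exact exists_strict_exhaustion_of_isolated (S := {f | IsLipHol E p f}) h1 h2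
    (fun f hf => hf.1) hsep

/-- Holomorphic maps to a complex normed space with bounded oscillation on the translates of
compact sets. -/
theorem sep_of_map {B : Type*} [NormedAddCommGroup B] [NormedSpace ℂ B] {p : V → Y} {g : V → B}
    (hg : ContMDiff 𝓘(ℂ, E) 𝓘(ℂ, B) ω g)
    (hb : ∀ K : Set V, IsCompact K → ∃ C : ℝ, ∀ γ : V ≃ₜ V, IsDeck p γ →
      ∀ x ∈ K, ∀ y ∈ K, ‖g (γ x) - g (γ y)‖ ≤ C)
    (hd : ∀ v : V, ∃ U ∈ 𝓝 v, ∀ w ∈ U, g w = g v → w = v) (v : V) :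
    ∃ U ∈ 𝓝 v, ∀ w ∈ U, w ≠ v → ∃ f, IsLipHol E p f ∧ f w ≠ f v := by
  obtain ⟨U, hU, hUv⟩ := hd v
  refine ⟨U, hU, fun w hw hwv => ?_⟩
  have h1 : g w ≠ g v := fun h => hwv (hUv w hw h)
  obtain ⟨ℓ, hℓ⟩ := SeparatingDual.exists_separating_of_ne (R := ℂ) h1
  refine ⟨fun x => ℓ (g x), ⟨ℓ.contMDiff.comp hg, fun K hK => ?_⟩, hℓ⟩
  obtain ⟨C, hC⟩ := hb K hK
  refine ⟨‖ℓ‖ * C, fun γ hγ x hx y hy => ?_⟩
  rw [← map_sub]
  exact (ℓ.le_opNorm _).trans (mul_le_mul_of_nonneg_left (hC γ hγ x hx y hy) (norm_nonneg _))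

end Vale.Agent.P300L
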