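import Vale.Agent.P300L.Conv
import Mathlib.Analysis.Calculus.ContDiff.RCLike
import Mathlib.Geometry.Manifold.ContMDiff.Atlas

open scoped Manifold ContDiff Topology
open Filter Real Set Vale.Agent.P300

namespace Vale.Agent.P300L

variable {E : Type*} [NormedAddCommGroup E] [NormedSpace ℂ E]
  {V : Type*} [TopologicalSpace V] [ChartedSpace E V]
  {Y : Type*} [TopologicalSpace Y] [ChartedSpace E Y]

/-- The functions in `F` form an immersion near `x`, quantitatively. -/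
def Imm (E : Type*) [NormedAddCommGroup E] [NormedSpace ℂ E]
    {V : Type*} [TopologicalSpace V] [ChartedSpace E V] (F : Finset (V → ℂ)) (x : V) : Prop :=
  ∃ k : ℝ, 0 < k ∧ ∃ N ∈ 𝓝 x, ∀ y ∈ N, ∀ y' ∈ N,
    k * ‖chartAt E x y' - chartAt E x y‖ ^ 2 ≤ ∑ f ∈ F, ‖f y' - f y‖ ^ 2

theorem Imm.mono {F F' : Finset (V → ℂ)} (hFF' : F ⊆ F') {x : V} (h : Imm E F x) :
    Imm E F' x := by
  obtain ⟨k, hk, N, hN, h⟩ := h
  refine ⟨k, hk, N, hN, fun y hy y' hy' => (h y hy y' hy').trans ?_⟩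
  exact Finset.sum_le_sum_of_subset_of_nonneg hFF' fun _ _ _ => by positivity

theorem Imm.strictAt {F : Finset (V → ℂ)} (hF : ∀ f ∈ F, ContMDiff 𝓘(ℂ, E) 𝓘(ℂ) ω f) {x : V}
    (h : Imm E F x) : StrictAt E (fun y => ∑ f ∈ F, ‖f y‖ ^ 2) x := by
  obtain ⟨k, hk, N, hN, h⟩ := h
  have hNs : interior N ∩ (chartAt E x).source ∈ 𝓝 x :=
    inter_mem (interior_mem_nhds.2 hN) ((chartAt E x).open_source.mem_nhds (mem_chart_source E x))
  refine ⟨k, hk, ?_⟩
  filter_upwards [eventually_mem_nhds_iff.2 hNs] with y hy g hg hgy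
  subst hgy
  obtain ⟨R, hR, hgR⟩ := hg.exists_radius
  obtain ⟨R', hR', hgR'⟩ : ∃ R' > 0, ∀ z ∈ Metric.ball (0 : ℂ) R',
      g z ∈ interior N ∩ (chartAt E x).source :=
    Metric.eventually_nhds_iff_ball.1 (hg.continuousAt.eventually hy)
  filter_upwards [eventually_lt_radius hR, eventually_lt_radius hR'] with r h3 h4
  have hyN : g 0 ∈ N := interior_subset (mem_of_mem_nhds hy).1
  have hsph : ∀ z ∈ Metric.sphere (0 : ℂ) r, g z ∈ interior N ∩ (chartAt E x).source :=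
    fun z hz => hgR' z (sphere_subset_ball h4.1 h4.2 hz)
  -- integrability
  have hi2 : ∀ f ∈ F, CircleIntegrable (fun z => ‖f (g z) - f (g 0)‖ ^ 2) 0 r := fun f hf =>
    hgR.circleIntegrable h3.1 h3.2 (u := fun v => ‖f v - f (g 0)‖ ^ 2)
      (by have := (hF f hf).continuous; fun_prop)
  have hi3 : ∀ f ∈ F, CircleIntegrable (fun z => ‖f (g z)‖ ^ 2) 0 r := fun f hf =>
    hgR.circleIntegrable h3.1 h3.2 (u := fun v => ‖f v‖ ^ 2)
      (by have := (hF f hf).continuous; fun_prop)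
  rw [circleAverage_fun_sum hi3]
  have e1 : ∑ f ∈ F, circleAverage (fun z => ‖f (g z)‖ ^ 2) 0 r
      = ∑ f ∈ F, ‖f (g 0)‖ ^ 2 + ∑ f ∈ F, circleAverage (fun z => ‖f (g z) - f (g 0)‖ ^ 2) 0 r := by
    rw [← Finset.sum_add_distrib]
    exact Finset.sum_congr rfl fun f hf => (hgR.mean_normSq h3.1 h3.2 (hF f hf)).symm
  rw [e1, ← circleAverage_fun_sum hi2]
  have e2 := circleAverage_fun_smul (𝕜 := ℝ) (a := k)
    (f := fun z => ‖chartAt E x (g z) - chartAt E x (g 0)‖ ^ 2) (c := 0) (R := r)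
  simp only [smul_eq_mul] at e2
  rw [← e2]
  have hsum : CircleIntegrable (fun z => ∑ f ∈ F, ‖f (g z) - f (g 0)‖ ^ 2) 0 r :=
    hgR.circleIntegrable' h3.1 h3.2 (N := univ)
      (u := fun v => ∑ f ∈ F, ‖f v - f (g 0)‖ ^ 2)
      (continuous_finsetSum F fun f hf => by
        have := (hF f hf).continuous
        fun_prop).continuousOn (fun _ _ => mem_univ _)
  have hik : CircleIntegrable (fun z => k * ‖chartAt E x (g z) - chartAt E x (g 0)‖ ^ 2) 0 r := by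
    refine hgR.circleIntegrable' h3.1 h3.2
      (u := fun v => k * ‖chartAt E x v - chartAt E x (g 0)‖ ^ 2)
      (N := interior N ∩ (chartAt E x).source) ?_ hsph
    exact continuousOn_const.mul
      ((((chartAt E x).continuousOn.mono inter_subset_right).sub continuousOn_const).norm.pow 2)
  refine add_le_add le_rfl (circleAverage_mono hik hsum fun z hz => ?_)
  rw [abs_of_pos h3.1] at hz
  exact h _ hyN _ (interior_subset (hsph z hz).1)

theorem Imm.eventually [IsManifold 𝓘(ℂ, E) ω V] {F : Finset (V → ℂ)} {x : V} (h : Imm E F x) :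
    ∀ᶠ x' in 𝓝 x, Imm E F x' := by
  obtain ⟨k, hk, N, hN, h⟩ := h
  have hNs : interior N ∩ (chartAt E x).source ∈ 𝓝 x :=
    inter_mem (interior_mem_nhds.2 hN) ((chartAt E x).open_source.mem_nhds (mem_chart_source E x))
  filter_upwards [hNs] with x' hx'
  set c := chartAt E x with hc
  set c' := chartAt E x' with hc'
  have ht : c x' ∈ c.target := c.map_source hx'.2
  have h1 : ContMDiffAt 𝓘(ℂ, E) 𝓘(ℂ, E) ω c.symm (c x') :=
    (contMDiffOn_chart_symm (I := 𝓘(ℂ, E)) (n := ω) (x := x)).contMDiffAt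
      (c.open_target.mem_nhds ht)
  have h2 : ContMDiffAt 𝓘(ℂ, E) 𝓘(ℂ, E) ω c' (c.symm (c x')) := by
    rw [c.left_inv hx'.2]
    exact (contMDiffOn_chart (I := 𝓘(ℂ, E)) (n := ω) (x := x')).contMDiffAt
      (c'.open_source.mem_nhds (mem_chart_source E x'))
  have h3 : ContDiffAt ℂ ω (fun e => c' (c.symm e)) (c x') :=
    (h2.comp (c x') h1).contDiffAt
  obtain ⟨K, s, hs, hK⟩ := (h3.hasStrictFDerivAt (by simp)).exists_lipschitzOnWith
  set K' : ℝ := max (K : ℝ) 1 with hK'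
  have hK'0 : 0 < K' := lt_max_of_lt_right one_pos
  refine ⟨k / K' ^ 2, by positivity, (interior N ∩ c.source) ∩ c ⁻¹' s,
    inter_mem ((isOpen_interior.inter c.open_source).mem_nhds hx')
      ((c.continuousAt hx'.2).preimage_mem_nhds hs), ?_⟩
  intro y hy y' hy'
  have a1 := h y (interior_subset hy.1.1) y' (interior_subset hy'.1.1)
  refine le_trans ?_ a1
  have a2 := hK.dist_le_mul (c y') hy'.2 (c y) hy.2
  rw [dist_eq_norm, dist_eq_norm, c.left_inv hy.1.2, c.left_inv hy'.1.2] at a2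
  have a3 : ‖c' y' - c' y‖ ≤ K' * ‖c y' - c y‖ :=
    a2.trans (mul_le_mul_of_nonneg_right (le_max_left _ _) (norm_nonneg _))
  calc k / K' ^ 2 * ‖c' y' - c' y‖ ^ 2 ≤ k / K' ^ 2 * (K' * ‖c y' - c y‖) ^ 2 := by gcongr
    _ = k * ‖c y' - c y‖ ^ 2 := by field_simp

/-- From the differentials to a quantitative immersion. -/
theorem exists_imm [FiniteDimensional ℂ E] [IsManifold 𝓘(ℂ, E) ω V] (S : Set (V → ℂ))
    (hS : ∀ f ∈ S, ContMDiff 𝓘(ℂ, E) 𝓘(ℂ) ω f) (x : V)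
    (h : ∀ ξ : TangentSpace 𝓘(ℂ, E) x, ξ ≠ 0 → ∃ f ∈ S, mfderiv 𝓘(ℂ, E) 𝓘(ℂ) f x ξ ≠ 0) :
    ∃ F : Finset (V → ℂ), (∀ f ∈ F, f ∈ S) ∧ Imm E F x := by
  classical
  have hpr : ProperSpace E := FiniteDimensional.proper ℂ E
  set c := chartAt E x with hc
  have ht : c x ∈ c.target := c.map_source (mem_chart_source E x)
  -- the derivatives in the chart
  have hder : ∀ f ∈ S, ContDiffAt ℂ ω (fun e => f (c.symm e)) (c x) := by
    intro f hf
    have h1 : ContMDiffAt 𝓘(ℂ, E) 𝓘(ℂ, E) ω c.symm (c x) :=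
      (contMDiffOn_chart_symm (I := 𝓘(ℂ, E)) (n := ω) (x := x)).contMDiffAt
        (c.open_target.mem_nhds ht)
    exact ((hS f hf (c.symm (c x))).comp (c x) h1).contDiffAt
  have hmf : ∀ f ∈ S, ∀ ξ : E, (mfderiv 𝓘(ℂ, E) 𝓘(ℂ) f x : E →L[ℂ] ℂ) ξ
      = fderiv ℂ (fun e => f (c.symm e)) (c x) ξ := by
    intro f hf ξ
    have : MDifferentiableAt 𝓘(ℂ, E) 𝓘(ℂ) f x := (hS f hf x).mdifferentiableAt (by simp)
    have h2 := this.hasMFDerivAt.2
    simp only [writtenInExtChartAt, extChartAt, mfld_simps] at h2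
    obtain ⟨D, hD⟩ : ∃ D : E →L[ℂ] ℂ, D = (mfderiv 𝓘(ℂ, E) 𝓘(ℂ) f x : E →L[ℂ] ℂ) := ⟨_, rfl⟩
    have h3 : HasFDerivWithinAt (fun e => f (c.symm e)) D univ (c x) := by
      rw [hD]
      exact h2
    rw [← hD, (h3.hasFDerivAt univ_mem).fderiv]
    rfl
  set ℓ : (V → ℂ) → (E →L[ℂ] ℂ) := fun f => fderiv ℂ (fun e => f (c.symm e)) (c x) with hℓ
  -- a finite subfamily
  have hsphere : IsCompact (Metric.sphere (0 : E) 1) := isCompact_sphere _ _
  have h1 : ∀ ξ ∈ Metric.sphere (0 : E) 1, ∃ f ∈ S, ℓ f ξ ≠ 0 := by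
    intro ξ hξ
    have hξ0 : ξ ≠ 0 := by
      rintro rfl
      simp at hξ
    obtain ⟨f, hf, hfξ⟩ := h ξ hξ0
    exact ⟨f, hf, by rw [hℓ]; simp only; rw [← hmf f hf]; exact hfξ⟩
  choose! fξ hfS hf0 using h1
  obtain ⟨t, htS, ht'⟩ := hsphere.elim_nhds_subcover (fun ξ => {ζ | ℓ (fξ ξ) ζ ≠ 0}) fun ξ hξ =>
    (isOpen_ne_fun (ℓ (fξ ξ)).continuous continuous_const).mem_nhds (hf0 ξ hξ)
  set F : Finset (V → ℂ) := t.image fξ with hF
  have hFS : ∀ f ∈ F, f ∈ S := by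
    intro f hf
    obtain ⟨ξ, hξ, rfl⟩ := Finset.mem_image.1 hf
    exact hfS ξ (htS ξ hξ)
  -- lower bound on the sphere
  obtain ⟨m, hm, hmb⟩ : ∃ m : ℝ, 0 < m ∧ ∀ ξ : E, m * ‖ξ‖ ^ 2 ≤ ∑ f ∈ F, ‖ℓ f ξ‖ ^ 2 := by
    rcases (Metric.sphere (0 : E) 1).eq_empty_or_nonempty with he | hne
    · refine ⟨1, one_pos, fun ξ => ?_⟩
      have hξ : ξ = 0 := by
        by_contra hξ
        have : (((‖ξ‖ : ℝ) : ℂ)⁻¹ • ξ) ∈ Metric.sphere (0 : E) 1 := by
          rw [mem_sphere_iff_norm, sub_zero, norm_smul, norm_inv, Complex.norm_real, norm_norm,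
            inv_mul_cancel₀ (norm_ne_zero_iff.2 hξ)]
        rw [he] at this
        exact this
      simp [hξ]
    · have hcont : ContinuousOn (fun ξ : E => ∑ f ∈ F, ‖ℓ f ξ‖ ^ 2) (Metric.sphere (0 : E) 1) :=
        (continuous_finsetSum F fun f _ => ((ℓ f).continuous.norm.pow 2)).continuousOn
      obtain ⟨ξ₀, hξ₀, hmin⟩ := hsphere.exists_isMinOn hne hcont
      refine ⟨∑ f ∈ F, ‖ℓ f ξ₀‖ ^ 2, ?_, fun ξ => ?_⟩
      · have := ht' hξ₀
        simp only [mem_iUnion] at this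
        obtain ⟨ξ, hξt, hξ⟩ := this
        have h2 : 0 < ‖ℓ (fξ ξ) ξ₀‖ ^ 2 := by
          have : 0 < ‖ℓ (fξ ξ) ξ₀‖ := norm_pos_iff.2 hξ
          positivity
        exact h2.trans_le (Finset.single_le_sum (f := fun f => ‖ℓ f ξ₀‖ ^ 2)
          (fun _ _ => by positivity) (Finset.mem_image_of_mem _ hξt))
      · by_cases hξ : ξ = 0
        · simp [hξ]
        · have hn : 0 < ‖ξ‖ := norm_pos_iff.2 hξ
          set ζ : E := (((‖ξ‖ : ℝ) : ℂ)⁻¹ • ξ) with hζ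
          have hζs : ζ ∈ Metric.sphere (0 : E) 1 := by
            rw [mem_sphere_iff_norm, sub_zero, hζ, norm_smul, norm_inv, Complex.norm_real,
              norm_norm, inv_mul_cancel₀ (norm_ne_zero_iff.2 hξ)]
          have h3 : ∑ f ∈ F, ‖ℓ f ξ₀‖ ^ 2 ≤ ∑ f ∈ F, ‖ℓ f ζ‖ ^ 2 := hmin hζs
          have h4 : ∀ f, ‖ℓ f ξ‖ ^ 2 = ‖ξ‖ ^ 2 * ‖ℓ f ζ‖ ^ 2 := by
            intro f
            rw [hζ, map_smul, norm_smul, norm_inv, Complex.norm_real, norm_norm]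
            field_simp
          simp_rw [h4]
          rw [← Finset.mul_sum, mul_comm]
          gcongr
  -- the nonlinear estimate
  set η : ℝ := Real.sqrt (m / (4 * (F.card + 1))) with hη
  have hη0 : 0 < η := Real.sqrt_pos.2 (by positivity)
  have hη2 : F.card * η ^ 2 ≤ m / 4 := by
    rw [hη, Real.sq_sqrt (by positivity)]
    rw [mul_div_assoc', div_le_div_iff₀ (by positivity) (by positivity)]
    nlinarith [hm]
  have h5 : ∀ f ∈ F, ∀ᶠ q : E × E in 𝓝 (c x, c x),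
      ‖f (c.symm q.1) - f (c.symm q.2) - ℓ f (q.1 - q.2)‖ ≤ η * ‖q.1 - q.2‖ := by
    intro f hf
    exact ((hder f (hFS f hf)).hasStrictFDerivAt (by simp)).isLittleO.bound hη0
  have h6 : ∀ᶠ q : E × E in 𝓝 (c x, c x), ∀ f ∈ F,
      ‖f (c.symm q.1) - f (c.symm q.2) - ℓ f (q.1 - q.2)‖ ≤ η * ‖q.1 - q.2‖ :=
    (Filter.eventually_all_finset _).2 h5
  rw [nhds_prod_eq] at h6
  obtain ⟨s, hs, hs'⟩ := (Filter.eventually_prod_self_iff (r := fun a b => ∀ f ∈ F,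
      ‖f (c.symm a) - f (c.symm b) - ℓ f (a - b)‖ ≤ η * ‖a - b‖)).1 h6
  refine ⟨F, hFS, m / 4, by positivity, c ⁻¹' s ∩ c.source,
    inter_mem ((c.continuousAt (mem_chart_source E x)).preimage_mem_nhds hs)
      (c.open_source.mem_nhds (mem_chart_source E x)), ?_⟩
  intro y hy y' hy'
  have h7 := hs' (c y') hy'.1 (c y) hy.1
  have h8 : ∀ f ∈ F, ‖ℓ f (c y' - c y)‖ ^ 2 / 2 - η ^ 2 * ‖c y' - c y‖ ^ 2
      ≤ ‖f y' - f y‖ ^ 2 := by
    intro f hf
    have h9 := h7 f hf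
    rw [c.left_inv hy.2, c.left_inv hy'.2] at h9
    set a := ‖ℓ f (c y' - c y)‖
    set b := ‖f y' - f y‖
    set d := ‖c y' - c y‖
    have h10 : a ≤ b + η * d := by
      calc a = ‖(f y' - f y) - (f y' - f y - ℓ f (c y' - c y))‖ := by
            rw [sub_sub_cancel]
        _ ≤ ‖f y' - f y‖ + ‖f y' - f y - ℓ f (c y' - c y)‖ := norm_sub_le _ _
        _ ≤ _ := by gcongr
    have ha : 0 ≤ a := norm_nonneg _
    have hb : 0 ≤ b := norm_nonneg _
    have hd : 0 ≤ η * d := mul_nonneg hη0.le (norm_nonneg _)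
    have h11 : a ^ 2 ≤ (b + η * d) ^ 2 := by gcongr
    nlinarith [sq_nonneg (b - η * d)]
  calc m / 4 * ‖c y' - c y‖ ^ 2
      ≤ (m * ‖c y' - c y‖ ^ 2) / 2 - F.card * η ^ 2 * ‖c y' - c y‖ ^ 2 := by
        nlinarith [sq_nonneg ‖c y' - c y‖]
    _ ≤ (∑ f ∈ F, ‖ℓ f (c y' - c y)‖ ^ 2) / 2 - F.card * η ^ 2 * ‖c y' - c y‖ ^ 2 := by
        have := hmb (c y' - c y)
        linarith
    _ = ∑ f ∈ F, (‖ℓ f (c y' - c y)‖ ^ 2 / 2 - η ^ 2 * ‖c y' - c y‖ ^ 2) := by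
        rw [Finset.sum_sub_distrib, Finset.sum_div, Finset.sum_const, nsmul_eq_mul]
        ring
    _ ≤ _ := Finset.sum_le_sum h8

theorem Imm.sep {Y : Type*} {p : V → Y} [LocallyCompactSpace V] [T2Space V] {F : Finset (V → ℂ)}
    (hF : ∀ f ∈ F, IsLipHol E p f) {v : V} (h : Imm E F v) :
    ∃ B ∈ 𝓝 v, IsCompact B ∧ ∀ z ∈ frontier B, ∃ f, IsLipHol E p f ∧ f z ≠ f v := by
  obtain ⟨k, hk, N, hN, h⟩ := h
  have hNs : N ∩ (chartAt E v).source ∈ 𝓝 v :=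
    inter_mem hN ((chartAt E v).open_source.mem_nhds (mem_chart_source E v))
  obtain ⟨B, hBv, hBN, hBc⟩ := local_compact_nhds hNs
  refine ⟨B, hBv, hBc, fun z hz => ?_⟩
  have hzB : z ∈ B := hBc.isClosed.frontier_subset hz
  have hzv : z ≠ v := by
    rintro rfl
    exact hz.2 (mem_interior_iff_mem_nhds.2 hBv)
  have h1 : chartAt E v z ≠ chartAt E v v := fun he =>
    hzv ((chartAt E v).injOn (hBN hzB).2 (mem_chart_source E v) he)
  have h2 : 0 < k * ‖chartAt E v z - chartAt E v v‖ ^ 2 := by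
    have : 0 < ‖chartAt E v z - chartAt E v v‖ := norm_pos_iff.2 (sub_ne_zero.2 h1)
    positivity
  have h3 := h v (mem_of_mem_nhds hN) z (hBN hzB).1
  by_contra hcon
  push Not at hcon
  have h4 : ∑ f ∈ F, ‖f z - f v‖ ^ 2 = 0 := by
    refine Finset.sum_eq_zero fun f hf => ?_
    rw [hcon f (hF f hf)]
    simp
  linarith

/-- Parts (B) and (C). -/
theorem cover_exhaustion [FiniteDimensional ℂ E] [IsManifold 𝓘(ℂ, E) ω V] [T2Space V]
    [SigmaCompactSpace V]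
    {p : V → Y} (hp : IsHolomorphicCovering E p) (hG : IsGaloisCovering p)
    {ρ : Y → ℝ} (hρ : IsPSH E ρ) (hρe : IsExhaustion ρ)
    (hsep : ∀ v : V, ∃ B ∈ 𝓝 v, IsCompact B ∧
      ∀ z ∈ frontier B, ∃ f, IsLipHol E p f ∧ f z ≠ f v) :
    ∃ ρ' : V → ℝ, IsPSH E ρ' ∧ IsExhaustion ρ' := by
  have hpr : ProperSpace E := FiniteDimensional.proper ℂ E
  have hlc : LocallyCompactSpace V := ChartedSpace.locallyCompactSpace E V
  obtain ⟨ρ', h1, h2, -⟩ := exists_exhaustion_aux (E := E) (V := V)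
    (fun K hK => cover_exists_psh hp hG hρ hρe hsep hK) (fun _ _ => True)
    (fun _ _ _ _ _ => trivial) (fun _ _ _ _ _ _ => trivial) (fun _ _ _ _ _ => trivial)
    (fun K _ => ⟨fun _ => 0, IsPSH.const 0, fun _ => le_rfl, fun _ _ => trivial⟩)
  exact ⟨ρ', h1, h2⟩

theorem cover_strict_exhaustion [FiniteDimensional ℂ E] [IsManifold 𝓘(ℂ, E) ω V] [T2Space V]
    [SigmaCompactSpace V]
    {p : V → Y} (hp : IsHolomorphicCovering E p) (hG : IsGaloisCovering p)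
    {ρ : Y → ℝ} (hρ : IsPSH E ρ) (hρe : IsExhaustion ρ)
    (him : ∀ (v : V) (ξ : TangentSpace 𝓘(ℂ, E) v), ξ ≠ 0 →
      ∃ f, IsLipHol E p f ∧ mfderiv 𝓘(ℂ, E) 𝓘(ℂ) f v ξ ≠ 0) :
    ∃ ρ' : V → ℝ, IsStrictlyPSH E ρ' ∧ IsExhaustion ρ' := by
  classical
  have hpr : ProperSpace E := FiniteDimensional.proper ℂ E
  have hlc : LocallyCompactSpace V := ChartedSpace.locallyCompactSpace E V
  have h0 : ∀ v : V, ∃ F : Finset (V → ℂ), (∀ f ∈ F, IsLipHol E p f) ∧ Imm E F v := fun v =>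
    exists_imm {f | IsLipHol E p f} (fun f hf => hf.1) v fun ξ hξ => him v ξ hξ
  choose F hF himm using h0
  obtain ⟨ρ', h1, h2, h3⟩ := exists_exhaustion_aux (E := E) (V := V)
    (fun K hK => cover_exists_psh hp hG hρ hρe (fun v => (himm v).sep (hF v)) hK) (StrictAt E)
    (fun _ _ _ h h' => h.congr h') (fun _ _ _ h h' h'' => h.add h' h'')
    (fun _ _ _ h h' => h.const_mul h') (by
      intro K hK
      obtain ⟨t, _, ht⟩ := hK.elim_nhds_subcover (fun v => {x | Imm E (F v) x})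
        fun v _ => (himm v).eventually
      have hFt : ∀ f ∈ t.biUnion F, ContMDiff 𝓘(ℂ, E) 𝓘(ℂ) ω f := by
        intro f hf
        obtain ⟨v, _, hfv⟩ := Finset.mem_biUnion.1 hf
        exact (hF v f hfv).1
      refine ⟨fun x => ∑ f ∈ t.biUnion F, ‖f x‖ ^ 2,
        IsPSH.finset_sum _ fun f hf => IsPSH.normSq (hFt f hf), fun x => by positivity, ?_⟩
      intro x hx
      have := ht hx
      simp only [mem_iUnion] at this
      obtain ⟨v, hvt, hv⟩ := this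
      exact Imm.strictAt hFt (Imm.mono (Finset.subset_biUnion_of_mem F hvt) hv))
  exact ⟨ρ', ⟨h1.1, h3⟩, h2⟩

end Vale.Agent.P300L
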